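import Vale.Agent.N075X.Key

/-!
# P075: sampling, covering and a geometric sum
-/

namespace Vale.Agent.N075X

open MeasureTheory Metric Set Filter Topology Vale.Agent.P075 Vale.Agent.P075.R
open scoped ENNReal

theorem vol_ball (x : ℝ × ℝ) {r : ℝ} (hr : 0 ≤ r) :
    volume (closedBall x r) = ENNReal.ofReal (4 * r ^ 2) := by
  rw [← closedBall_prod_same x.1 x.2 r, Measure.volume_eq_prod, Measure.prod_prod,
    Real.volume_closedBall, Real.volume_closedBall, ← ENNReal.ofReal_mul (by positivity)]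
  congr 1
  ring

/-- Vitali covering: weak type bound for a family of squares -/
theorem weak {ι : Type*} (f : ℝ × ℝ → ℝ≥0∞) (t : Set ι) (x : ι → ℝ × ℝ) (r : ι → ℝ)
    {η R : ℝ} (κ : ℝ≥0∞) (hη : 0 < η) (hr : ∀ a ∈ t, η ≤ r a ∧ r a ≤ R)
    (hκ : ∀ a ∈ t, ENNReal.ofReal (r a ^ 2) ≤ κ * ∫⁻ y in closedBall (x a) (r a), f y) :
    volume (thickening η (⋃ a ∈ t, closedBall (x a) (r a))) ≤ 100 * κ * ∫⁻ y, f y := by
  obtain ⟨u, hut, hd, hc⟩ := Vitali.exists_disjoint_subfamily_covering_enlargement_closedBall t x r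
    R (fun a ha => (hr a ha).2) 4 (by norm_num)
  have hu : u.Countable := hd.countable_of_nonempty_interior fun a ha =>
    (nonempty_ball.2 (hη.trans_le (hr a (hut ha)).1)).mono ball_subset_interior_closedBall
  have hsub : thickening η (⋃ a ∈ t, closedBall (x a) (r a))
      ⊆ ⋃ b ∈ u, closedBall (x b) (5 * r b) := by
    intro y hy
    obtain ⟨z, hz, hyz⟩ := mem_thickening_iff.1 hy
    simp only [mem_iUnion] at hz
    obtain ⟨a, ha, hz⟩ := hz
    obtain ⟨b, hb, hab⟩ := hc a ha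
    have h1 := mem_closedBall.1 (hab hz)
    have h2 := (hr b (hut hb)).1
    have h3 := dist_triangle y z (x b)
    exact mem_biUnion hb (mem_closedBall.2 (by linarith))
  refine (measure_mono hsub).trans ((measure_biUnion_le _ hu _).trans ?_)
  have h1 : ∀ b : u, volume (closedBall (x b) (5 * r b))
      ≤ 100 * κ * ∫⁻ y in closedBall (x b) (r b), f y := by
    intro b
    have hb := hη.le.trans (hr b (hut b.2)).1
    rw [vol_ball _ (by positivity), show 4 * (5 * r b) ^ 2 = 100 * r b ^ 2 by ring,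
      ENNReal.ofReal_mul (by norm_num), mul_assoc]
    gcongr
    · simp
    · exact hκ b (hut b.2)
  refine (ENNReal.tsum_le_tsum h1).trans ?_
  rw [ENNReal.tsum_mul_left, ← lintegral_biUnion hu (fun _ _ => measurableSet_closedBall) hd]
  gcongr
  exact Measure.restrict_le_self

/-- the samples on a box are controlled by an integral -/
theorem samp {σ : ℝ × ℝ → ℝ × ℝ} (hσ : MeasurePreserving σ volume volume)
    {Ψ : ℝ × ℝ → ℝ≥0∞} (hΨ : Measurable Ψ) {u : ℝ × ℝ → ℝ} (hu : ∀ x, 0 ≤ u x) {η : ℝ}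
    (hη : 0 < η) (hdom : ∀ x y, dist x y ≤ η → ENNReal.ofReal (u x) ≤ Ψ (σ y)) (a : ℕ)
    (x : ℝ × ℝ) {B : Set (ℝ × ℝ)} (hBm : MeasurableSet B)
    (hB : ∀ α β : ℝ, 0 ≤ α → α ≤ 2 ^ a * η → 0 ≤ β → β ≤ 2 ^ a * η → σ (x.1 + α, x.2 + β) ∈ B) :
    ENNReal.ofReal ((∑ i : Ix a, ∑ j : Ix a, u (x.1 + η * val a i, x.2 + η * val a j)) * η ^ 2)
      ≤ ∫⁻ y in B, Ψ y := by
  have e1 : ∑ i : Ix a, ∑ j : Ix a, u (x.1 + η * val a i, x.2 + η * val a j)
      = ∑ q ∈ Finset.range (2 ^ a) ×ˢ Finset.range (2 ^ a),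
        u (x.1 + η * (q.1 : ℕ), x.2 + η * (q.2 : ℕ)) := by
    rw [Finset.sum_product, ← sum_val a (fun i => ∑ j ∈ Finset.range (2 ^ a),
      u (x.1 + η * (i : ℕ), x.2 + η * (j : ℕ)))]
    refine Finset.sum_congr rfl fun i _ => ?_
    exact sum_val a (fun j => u (x.1 + η * val a i, x.2 + η * (j : ℕ)))
  set C : ℕ × ℕ → Set (ℝ × ℝ) := fun q => Ico (x.1 + η * q.1) (x.1 + η * (q.1 + 1)) ×ˢ
    Ico (x.2 + η * q.2) (x.2 + η * (q.2 + 1)) with hC
  have hCm : ∀ q, MeasurableSet (C q) := fun q => measurableSet_Ico.prod measurableSet_Ico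
  have one : ∀ (c y : ℝ) (i j : ℕ), y ∈ Ico (c + η * i) (c + η * (i + 1)) →
      y ∈ Ico (c + η * j) (c + η * (j + 1)) → i = j := by
    intro c y i j hi hj
    have h1 : (i : ℝ) < j + 1 := lt_of_mul_lt_mul_left (by linarith [hi.1, hj.2]) hη.le
    have h2 : (j : ℝ) < i + 1 := lt_of_mul_lt_mul_left (by linarith [hi.2, hj.1]) hη.le
    have h3 : i < j + 1 := by exact_mod_cast h1
    have h4 : j < i + 1 := by exact_mod_cast h2
    omega
  have hd : Set.PairwiseDisjoint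
      (↑(Finset.range (2 ^ a) ×ˢ Finset.range (2 ^ a)) : Set (ℕ × ℕ)) C := by
    intro q _ q' _ hne
    refine Set.disjoint_left.2 fun y h1 h2 => hne ?_
    exact Prod.ext (one _ _ _ _ h1.1 h2.1) (one _ _ _ _ h1.2 h2.2)
  have hcell : ∀ q : ℕ × ℕ, ENNReal.ofReal (u (x.1 + η * q.1, x.2 + η * q.2) * η ^ 2)
      ≤ ∫⁻ y in C q, Ψ (σ y) := by
    intro q
    have hv : volume (C q) = ENNReal.ofReal (η ^ 2) := by
      simp only [hC]
      rw [Measure.volume_eq_prod, Measure.prod_prod, Real.volume_Ico, Real.volume_Ico,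
        ← ENNReal.ofReal_mul (by nlinarith)]
      congr 1
      ring
    rw [ENNReal.ofReal_mul (hu _), ← hv, ← setLIntegral_const]
    refine setLIntegral_mono' (hCm q) fun y hy => hdom _ _ ?_
    rw [Prod.dist_eq, Real.dist_eq, Real.dist_eq, max_le_iff, abs_le, abs_le]
    obtain ⟨⟨a1, a2⟩, ⟨a3, a4⟩⟩ := hy
    refine ⟨⟨?_, ?_⟩, ?_, ?_⟩ <;> simp only <;> linarith
  rw [e1, Finset.sum_mul, ENNReal.ofReal_sum_of_nonneg fun q _ => mul_nonneg (hu _) (sq_nonneg _)]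
  refine (Finset.sum_le_sum fun q _ => hcell q).trans ?_
  rw [← lintegral_biUnion_finset hd (fun q _ => hCm q), ← hσ.setLIntegral_comp_preimage hBm hΨ]
  refine lintegral_mono_set fun y hy => ?_
  simp only [mem_iUnion] at hy
  obtain ⟨q, hq, ⟨a1, a2⟩, ⟨a3, a4⟩⟩ := hy
  rw [Finset.mem_product, Finset.mem_range, Finset.mem_range] at hq
  have b1 : (q.1 : ℝ) + 1 ≤ 2 ^ a := by exact_mod_cast hq.1
  have b2 : (q.2 : ℝ) + 1 ≤ 2 ^ a := by exact_mod_cast hq.2
  have b3 : (0 : ℝ) ≤ η * q.1 := by positivity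
  have b4 : (0 : ℝ) ≤ η * q.2 := by positivity
  have := hB (y.1 - x.1) (y.2 - x.2) (by linarith) (by nlinarith) (by linarith) (by nlinarith)
  simpa using this

/-- the sum over the levels -/
theorem geom {s : ℝ} (hs : 0 < s) {x : ℝ} (hx : 0 ≤ x) :
    ∑' n : ℤ, (if (2 : ℝ) ^ n / 32 < x then ENNReal.ofReal (((2 : ℝ) ^ n) ^ s * x) else 0)
      ≤ ENNReal.ofReal (32 ^ s * (1 - 2 ^ (-s))⁻¹ * x ^ (s + 1)) := by
  rcases hx.eq_or_lt with rfl | hx0
  · simp
  obtain ⟨m, hm1, hm2⟩ := exists_mem_Ioc_zpow (show 0 < 32 * x by positivity)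
    (show (1 : ℝ) < 2 by norm_num)
  have hinj : Function.Injective fun j : ℕ => m - (j : ℤ) := by
    intro i j h
    simp only at h
    omega
  rw [← hinj.tsum_eq]
  swap
  · intro n hn
    have h1 : (2 : ℝ) ^ n / 32 < x := by
      by_contra h
      exact hn (if_neg h)
    have h2 : (2 : ℝ) ^ n < 2 ^ (m + 1) := by linarith
    have h3 : n < m + 1 := (zpow_lt_zpow_iff_right₀ (by norm_num)).1 h2
    exact ⟨(m - n).toNat, by simp only; omega⟩
  have hr0 : (0 : ℝ) ≤ 2 ^ (-s) := by positivity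
  have hr1 : (2 : ℝ) ^ (-s) < 1 := Real.rpow_lt_one_of_one_lt_of_neg (by norm_num) (by linarith)
  have hterm : ∀ j : ℕ, (if (2 : ℝ) ^ (m - (j : ℤ)) / 32 < x then
      ENNReal.ofReal (((2 : ℝ) ^ (m - (j : ℤ))) ^ s * x) else 0)
      ≤ ENNReal.ofReal ((32 ^ s * x ^ (s + 1)) * ((2 : ℝ) ^ (-s)) ^ j) := by
    intro j
    split_ifs
    · refine ENNReal.ofReal_le_ofReal ?_
      have e1 : ((2 : ℝ) ^ (m - (j : ℤ))) ^ s = ((2 : ℝ) ^ m) ^ s * ((2 : ℝ) ^ (-s)) ^ j := by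
        rw [zpow_sub₀ (by norm_num), zpow_natCast, Real.div_rpow (by positivity) (by positivity),
          div_eq_mul_inv, Real.rpow_neg (by norm_num), inv_pow, ← Real.rpow_natCast,
          ← Real.rpow_natCast, ← Real.rpow_mul (by norm_num), ← Real.rpow_mul (by norm_num),
          mul_comm s]
      have e2 : ((2 : ℝ) ^ m) ^ s ≤ 32 ^ s * x ^ s := by
        rw [← Real.mul_rpow (by norm_num) hx]
        exact Real.rpow_le_rpow (by positivity) hm1.le hs.le
      rw [e1, Real.rpow_add_one hx0.ne']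
      have e3 : (0 : ℝ) ≤ ((2 : ℝ) ^ (-s)) ^ j * x := by positivity
      nlinarith [mul_le_mul_of_nonneg_right e2 e3]
    · exact zero_le
  refine (ENNReal.tsum_le_tsum hterm).trans (le_of_eq ?_)
  rw [← ENNReal.ofReal_tsum_of_nonneg (fun j => by positivity)
    ((summable_geometric_of_lt_one hr0 hr1).mul_left _), tsum_mul_left,
    tsum_geometric_of_lt_one hr0 hr1]
  congr 1
  ring

end Vale.Agent.N075X
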