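import Vale.Agent.N075X.Real

/-!
# P075: the truncated form of complex functions in `L^p`, all exponents above two
-/

namespace Vale.Agent.N075X

open MeasureTheory Filter Topology ENNReal Vale.Agent.P075 Vale.Agent.P075.R
  Vale.Agent.P075.R.H903

/-- three exponents above two on the Hoelder line -/
structure HT (p₀ p₁ p₂ : ℝ≥0∞) : Prop where
  g0 : 2 < p₀.toReal
  g1 : 2 < p₁.toReal
  g2 : 2 < p₂.toReal
  s : p₀.toReal⁻¹ + p₁.toReal⁻¹ + p₂.toReal⁻¹ = 1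

theorem ne_top_of {p : ℝ≥0∞} (h : 2 < p.toReal) : p ≠ ⊤ := by
  rintro rfl
  norm_num at h

theorem ne_zero_of {p : ℝ≥0∞} (h : 2 < p.toReal) : p ≠ 0 := by
  rintro rfl
  norm_num at h

theorem one_le_of {p : ℝ≥0∞} (h : 2 < p.toReal) : 1 ≤ p := by
  rw [← ENNReal.ofReal_toReal (ne_top_of h), ← ENNReal.ofReal_one]
  exact ENNReal.ofReal_le_ofReal (by linarith)

theorem ht_of {p₀ p₁ p₂ : ℝ≥0∞} (h0 : 2 < p₀) (h1 : 2 < p₁) (h2 : 2 < p₂)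
    (h : p₀⁻¹ + p₁⁻¹ + p₂⁻¹ = 1) : HT p₀ p₁ p₂ := by
  have inv : ∀ {p : ℝ≥0∞}, 2 < p → p⁻¹ ≠ ⊤ ∧ p.toReal⁻¹ < 1 / 2 := by
    intro p hp
    have hp0 : p ≠ 0 := (lt_trans (by norm_num) hp).ne'
    refine ⟨ENNReal.inv_ne_top.2 hp0, ?_⟩
    have h3 : p⁻¹ < 2⁻¹ := ENNReal.inv_lt_inv.2 hp
    have h4 := (ENNReal.toReal_lt_toReal (ENNReal.inv_ne_top.2 hp0) (by norm_num)).2 h3
    simpa [ENNReal.toReal_inv] using h4
  have hs : p₀.toReal⁻¹ + p₁.toReal⁻¹ + p₂.toReal⁻¹ = 1 := by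
    have := congrArg ENNReal.toReal h
    rw [ENNReal.toReal_add (ENNReal.add_ne_top.2 ⟨(inv h0).1, (inv h1).1⟩) (inv h2).1,
      ENNReal.toReal_add (inv h0).1 (inv h1).1] at this
    simpa [ENNReal.toReal_inv] using this
  have fin : ∀ {p : ℝ≥0∞}, 2 < p → 0 < p.toReal⁻¹ → 2 < p.toReal := by
    intro p hp h5
    have hp1 : p ≠ ⊤ := by
      rintro rfl
      simp at h5
    have := (ENNReal.toReal_lt_toReal (by norm_num) hp1).2 hp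
    simpa using this
  have a0 := (inv h0).2
  have a1 := (inv h1).2
  have a2 := (inv h2).2
  exact ⟨fin h0 (by linarith), fin h1 (by linarith), fin h2 (by linarith), hs⟩

/-- the `L^p` norm -/
noncomputable def Np (p : ℝ≥0∞) (G : ℝ × ℝ → ℂ) : ℝ := (eLpNorm G p volume).toReal

theorem Np_nonneg (p : ℝ≥0∞) (G : ℝ × ℝ → ℂ) : 0 ≤ Np p G := ENNReal.toReal_nonneg

variable {p₀ p₁ p₂ : ℝ≥0∞}

/-- Hoelder on one plane -/
theorem hoelder (H : HT p₀ p₁ p₂) {G₀ G₁ G₂ : ℝ × ℝ → ℂ} (h0 : AEStronglyMeasurable G₀ volume)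
    (h1 : AEStronglyMeasurable G₁ volume) (h2 : AEStronglyMeasurable G₂ volume) (u : ℝ) :
    ∫⁻ p : ℝ × ℝ, ‖G₀ p‖ₑ * ‖G₁ (pA u p)‖ₑ * ‖G₂ (pB u p)‖ₑ
      ≤ eLpNorm G₀ p₀ volume * eLpNorm G₁ p₁ volume * eLpNorm G₂ p₂ volume := by
  have hA1 : AEStronglyMeasurable (fun p => G₁ (pA u p)) volume :=
    h1.comp_measurePreserving (mp_pA u)
  have hB1 : AEStronglyMeasurable (fun p => G₂ (pB u p)) volume :=
    h2.comp_measurePreserving (mp_pB u)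
  have g0 := H.g0
  have g1 := H.g1
  have g2 := H.g2
  let f : Fin 3 → ℝ × ℝ → ℝ≥0∞ :=
    ![fun p => ‖G₀ p‖ₑ ^ p₀.toReal, fun p => ‖G₁ (pA u p)‖ₑ ^ p₁.toReal,
      fun p => ‖G₂ (pB u p)‖ₑ ^ p₂.toReal]
  let w : Fin 3 → ℝ := ![p₀.toReal⁻¹, p₁.toReal⁻¹, p₂.toReal⁻¹]
  have hf : ∀ i ∈ (Finset.univ : Finset (Fin 3)), AEMeasurable (f i) volume := by
    intro i _
    fin_cases i
    · exact h0.enorm.pow_const _
    · exact hA1.enorm.pow_const _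
    · exact hB1.enorm.pow_const _
  have w0 : w 0 = p₀.toReal⁻¹ := rfl
  have w1 : w 1 = p₁.toReal⁻¹ := rfl
  have w2 : w 2 = p₂.toReal⁻¹ := rfl
  have key := ENNReal.lintegral_prod_norm_pow_le (μ := (volume : Measure (ℝ × ℝ)))
    (Finset.univ : Finset (Fin 3)) hf (p := w) (by
      rw [Fin.sum_univ_three, w0, w1, w2]
      exact H.s) (by
      intro i _
      fin_cases i
      · exact (by positivity : 0 ≤ p₀.toReal⁻¹)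
      · exact (by positivity : 0 ≤ p₁.toReal⁻¹)
      · exact (by positivity : 0 ≤ p₂.toReal⁻¹))
  rw [Fin.prod_univ_three] at key
  simp only [Fin.prod_univ_three] at key
  have hr : ∀ (x : ℝ≥0∞) {r : ℝ}, 2 < r → (x ^ r) ^ r⁻¹ = x := by
    intro x r hr
    rw [← ENNReal.rpow_mul, mul_inv_cancel₀ (by linarith), ENNReal.rpow_one]
  have e0 : ∀ p, f 0 p = ‖G₀ p‖ₑ ^ p₀.toReal := fun _ => rfl
  have e1 : ∀ p, f 1 p = ‖G₁ (pA u p)‖ₑ ^ p₁.toReal := fun _ => rfl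
  have e2 : ∀ p, f 2 p = ‖G₂ (pB u p)‖ₑ ^ p₂.toReal := fun _ => rfl
  simp only [e0, e1, e2, w0, w1, w2, hr _ g0, hr _ g1, hr _ g2] at key
  have hn : ∀ (G : ℝ × ℝ → ℂ) {p : ℝ≥0∞}, 2 < p.toReal →
      eLpNorm G p volume = (∫⁻ x, ‖G x‖ₑ ^ p.toReal) ^ p.toReal⁻¹ := by
    intro G p hp
    rw [eLpNorm_eq_lintegral_rpow_enorm_toReal (ne_zero_of hp) (ne_top_of hp), one_div]
  have i1 : ∫⁻ p, ‖G₁ (pA u p)‖ₑ ^ p₁.toReal = ∫⁻ p, ‖G₁ p‖ₑ ^ p₁.toReal := by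
    have h := lintegral_map' (μ := (volume : Measure (ℝ × ℝ)))
      (f := fun p => ‖G₁ p‖ₑ ^ p₁.toReal) (g := pA u) (by
        rw [(mp_pA u).map_eq]
        exact h1.enorm.pow_const _) (mp_pA u).measurable.aemeasurable
    rw [(mp_pA u).map_eq] at h
    exact h.symm
  have i2 : ∫⁻ p, ‖G₂ (pB u p)‖ₑ ^ p₂.toReal = ∫⁻ p, ‖G₂ p‖ₑ ^ p₂.toReal := by
    have h := lintegral_map' (μ := (volume : Measure (ℝ × ℝ)))
      (f := fun p => ‖G₂ p‖ₑ ^ p₂.toReal) (g := pB u) (by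
        rw [(mp_pB u).map_eq]
        exact h2.enorm.pow_const _) (mp_pB u).measurable.aemeasurable
    rw [(mp_pB u).map_eq] at h
    exact h.symm
  rw [i1, i2] at key
  rw [hn G₀ g0, hn G₁ g1, hn G₂ g2]
  exact key

/-- the bound of the absolute integral -/
theorem lint (H : HT p₀ p₁ p₂) {G₀ G₁ G₂ : ℝ × ℝ → ℂ} {ε R : ℝ} (hε : 0 < ε)
    (h0 : AEStronglyMeasurable G₀ volume)
    (h1 : AEStronglyMeasurable G₁ volume) (h2 : AEStronglyMeasurable G₂ volume) :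
    ∫⁻ x, ‖kern ε R G₀ G₁ G₂ x‖ₑ ≤ ENNReal.ofReal (2 * R / ε) *
      (eLpNorm G₀ p₀ volume * eLpNorm G₁ p₁ volume * eLpNorm G₂ p₂ volume) := by
  have hm := aesm_kern ε R h0 h1 h2
  have e1 : ∫⁻ x, ‖kern ε R G₀ G₁ G₂ x‖ₑ = ∫⁻ q, ‖kern ε R G₀ G₁ G₂ (sh q)‖ₑ := by
    have h := lintegral_map' (μ := (volume : Measure ((ℝ × ℝ) × ℝ)))
      (f := fun x => ‖kern ε R G₀ G₁ G₂ x‖ₑ) (g := sh) (by
        rw [mp_sh.map_eq]
        exact hm.enorm) mp_sh.measurable.aemeasurable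
    rw [mp_sh.map_eq] at h
    exact h
  rw [e1]
  have hm2 : AEMeasurable (fun q => ‖kern ε R G₀ G₁ G₂ (sh q)‖ₑ)
      ((volume : Measure (ℝ × ℝ)).prod (volume : Measure ℝ)) :=
    (hm.comp_measurePreserving mp_sh).enorm
  have e2 : ∫⁻ q, ‖kern ε R G₀ G₁ G₂ (sh q)‖ₑ
      = ∫⁻ u : ℝ, ∫⁻ p : ℝ × ℝ, ‖kern ε R G₀ G₁ G₂ (sh (p, u))‖ₑ := by
    rw [Measure.volume_eq_prod]
    exact lintegral_prod_symm _ hm2
  rw [e2]
  have e3 : ∀ u : ℝ, ∫⁻ p : ℝ × ℝ, ‖kern ε R G₀ G₁ G₂ (sh (p, u))‖ₑ ≤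
      (Set.Ioo (-R) R).indicator (fun _ => ENNReal.ofReal (1 / ε) *
        (eLpNorm G₀ p₀ volume * eLpNorm G₁ p₁ volume * eLpNorm G₂ p₂ volume)) u := by
    intro u
    by_cases hu : ε < |u| ∧ |u| < R
    · have hmem : u ∈ Set.Ioo (-R) R := abs_lt.1 hu.2
      rw [Set.indicator_of_mem hmem]
      have e4 : ∀ p : ℝ × ℝ, ‖kern ε R G₀ G₁ G₂ (sh (p, u))‖ₑ ≤ ENNReal.ofReal (1 / ε) *
          (‖G₀ p‖ₑ * ‖G₁ (pA u p)‖ₑ * ‖G₂ (pB u p)‖ₑ) := by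
        intro p
        rw [kern_sh]
        simp only [hu, and_self, if_true]
        rw [div_eq_mul_inv, enorm_mul, enorm_mul, enorm_mul, mul_comm]
        gcongr
        rw [enorm_inv (by
          simp only [ne_eq, Complex.ofReal_eq_zero]
          intro h
          rw [h, abs_zero] at hu
          linarith [hu.1])]
        have : ‖((u : ℝ) : ℂ)‖ₑ = ENNReal.ofReal |u| := by
          rw [← ofReal_norm, Complex.norm_real, Real.norm_eq_abs]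
        rw [this, one_div, ENNReal.ofReal_inv_of_pos hε]
        exact ENNReal.inv_le_inv.2 (ENNReal.ofReal_le_ofReal hu.1.le)
      calc ∫⁻ p : ℝ × ℝ, ‖kern ε R G₀ G₁ G₂ (sh (p, u))‖ₑ
          ≤ ∫⁻ p : ℝ × ℝ, ENNReal.ofReal (1 / ε) *
            (‖G₀ p‖ₑ * ‖G₁ (pA u p)‖ₑ * ‖G₂ (pB u p)‖ₑ) := lintegral_mono e4
        _ = ENNReal.ofReal (1 / ε) * ∫⁻ p : ℝ × ℝ,
            (‖G₀ p‖ₑ * ‖G₁ (pA u p)‖ₑ * ‖G₂ (pB u p)‖ₑ) :=
            lintegral_const_mul' _ _ ENNReal.ofReal_ne_top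
        _ ≤ _ := by
            gcongr
            exact hoelder H h0 h1 h2 u
    · have : ∀ p : ℝ × ℝ, ‖kern ε R G₀ G₁ G₂ (sh (p, u))‖ₑ = 0 := by
        intro p
        rw [kern_sh]
        simp only [hu, if_false, enorm_zero]
      simp only [this, lintegral_zero]
      exact zero_le
  refine (lintegral_mono e3).trans ?_
  rw [lintegral_indicator measurableSet_Ioo, setLIntegral_const, Real.volume_Ioo, mul_comm,
    ← mul_assoc, ← ENNReal.ofReal_mul' (by positivity)]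
  apply le_of_eq
  congr 2
  ring

theorem int_kern (H : HT p₀ p₁ p₂) {G₀ G₁ G₂ : ℝ × ℝ → ℂ} {ε R : ℝ} (hε : 0 < ε)
    (h0 : MemLp G₀ p₀ volume) (h1 : MemLp G₁ p₁ volume) (h2 : MemLp G₂ p₂ volume) :
    Integrable (kern ε R G₀ G₁ G₂) volume := by
  refine ⟨aesm_kern ε R h0.1 h1.1 h2.1, ?_⟩
  refine lt_of_le_of_lt (lint H (R := R) hε h0.1 h1.1 h2.1) ?_
  exact ENNReal.mul_lt_top ENNReal.ofReal_lt_top
    (ENNReal.mul_lt_top (ENNReal.mul_lt_top h0.2 h1.2) h2.2)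

theorem T_le (H : HT p₀ p₁ p₂) {G₀ G₁ G₂ : ℝ × ℝ → ℂ} {ε R : ℝ} (hε : 0 < ε) (hR : 0 < R)
    (h0 : MemLp G₀ p₀ volume) (h1 : MemLp G₁ p₁ volume) (h2 : MemLp G₂ p₂ volume) :
    ‖T ε R G₀ G₁ G₂‖ ≤ (2 * R / ε) * (Np p₀ G₀ * Np p₁ G₁ * Np p₂ G₂) := by
  have h := lint H (R := R) hε h0.1 h1.1 h2.1
  have hfin : ENNReal.ofReal (2 * R / ε) *
      (eLpNorm G₀ p₀ volume * eLpNorm G₁ p₁ volume * eLpNorm G₂ p₂ volume) ≠ ⊤ :=
    (ENNReal.mul_lt_top ENNReal.ofReal_lt_top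
      (ENNReal.mul_lt_top (ENNReal.mul_lt_top h0.2 h1.2) h2.2)).ne
  have h3 := ENNReal.toReal_mono hfin h
  have h4 : ‖T ε R G₀ G₁ G₂‖ ≤ (∫⁻ x, ‖kern ε R G₀ G₁ G₂ x‖ₑ).toReal := by
    unfold T
    rw [← toReal_enorm]
    exact ENNReal.toReal_mono (ne_top_of_le_ne_top hfin h) (enorm_integral_le_lintegral_enorm _)
  refine h4.trans (h3.trans (le_of_eq ?_))
  rw [ENNReal.toReal_mul, ENNReal.toReal_mul, ENNReal.toReal_mul,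
    ENNReal.toReal_ofReal (by positivity)]
  rfl

theorem T_diff (H : HT p₀ p₁ p₂) {G₀ G₁ G₂ g₀ g₁ g₂ : ℝ × ℝ → ℂ} {ε R : ℝ} (hε : 0 < ε)
    (h0 : MemLp G₀ p₀ volume) (h1 : MemLp G₁ p₁ volume) (h2 : MemLp G₂ p₂ volume)
    (k0 : MemLp g₀ p₀ volume) (k1 : MemLp g₁ p₁ volume) (k2 : MemLp g₂ p₂ volume) :
    T ε R G₀ G₁ G₂ = T ε R g₀ g₁ g₂ + (T ε R (G₀ - g₀) G₁ G₂ + T ε R g₀ (G₁ - g₁) G₂
      + T ε R g₀ g₁ (G₂ - g₂)) := by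
  have e0 : T ε R (G₀ - g₀) G₁ G₂ = T ε R G₀ G₁ G₂ - T ε R g₀ G₁ G₂ := by
    unfold T
    rw [← integral_sub (int_kern H hε h0 h1 h2) (int_kern H hε k0 h1 h2)]
    exact integral_congr_ae (ae_of_all _ fun x => kern_sub0 ε R G₀ g₀ G₁ G₂ x)
  have e1 : T ε R g₀ (G₁ - g₁) G₂ = T ε R g₀ G₁ G₂ - T ε R g₀ g₁ G₂ := by
    unfold T
    rw [← integral_sub (int_kern H hε k0 h1 h2) (int_kern H hε k0 k1 h2)]
    exact integral_congr_ae (ae_of_all _ fun x => kern_sub1 ε R G₁ g₁ g₀ G₂ x)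
  have e2 : T ε R g₀ g₁ (G₂ - g₂) = T ε R g₀ g₁ G₂ - T ε R g₀ g₁ g₂ := by
    unfold T
    rw [← integral_sub (int_kern H hε k0 k1 h2) (int_kern H hε k0 k1 k2)]
    exact integral_congr_ae (ae_of_all _ fun x => kern_sub2 ε R G₂ g₂ g₀ g₁ x)
  rw [e0, e1, e2]
  ring

theorem Np_le_add {p : ℝ≥0∞} (hp : 2 < p.toReal) {G g : ℝ × ℝ → ℂ} (h : MemLp G p volume)
    (k : MemLp g p volume) {δ : ℝ} (hδ : Np p (G - g) ≤ δ) : Np p g ≤ Np p G + δ := by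
  have h1 : g = G - (G - g) := by
    ext p
    simp
  have hfin : eLpNorm G p volume + eLpNorm (G - g) p volume ≠ ⊤ :=
    (ENNReal.add_lt_top.2 ⟨h.2, (h.sub k).2⟩).ne
  have h2 : eLpNorm g p volume ≤ eLpNorm G p volume + eLpNorm (G - g) p volume := by
    conv_lhs => rw [h1]
    exact eLpNorm_sub_le h.1 (h.sub k).1 (one_le_of hp)
  have h3 := ENNReal.toReal_mono hfin h2
  rw [ENNReal.toReal_add h.2.ne (h.sub k).2.ne] at h3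
  unfold Np at *
  linarith

theorem Ip_le {p : ℝ≥0∞} (hp : 2 < p.toReal) {g : ℝ × ℝ → ℂ} (k : MemLp g p volume)
    {a : ℝ × ℝ → ℝ} (hag : ∀ x, |a x| ≤ ‖g x‖) {c : ℝ} (hc : Np p g ≤ c) :
    Ip p.toReal a ≤ c ^ p.toReal := by
  have hi : Integrable fun x => ‖g x‖ ^ p.toReal :=
    k.integrable_norm_rpow (ne_zero_of hp) (ne_top_of hp)
  have h1 : Ip p.toReal a ≤ ∫ x, ‖g x‖ ^ p.toReal :=
    integral_mono_of_nonneg (ae_of_all _ fun x => by positivity) hi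
      (ae_of_all _ fun x => Real.rpow_le_rpow (abs_nonneg _) (hag x) (by linarith))
  have h0 : 0 ≤ ∫ x, ‖g x‖ ^ p.toReal := integral_nonneg fun x => by positivity
  have h2 : Np p g = (∫ x, ‖g x‖ ^ p.toReal) ^ p.toReal⁻¹ := by
    unfold Np
    rw [k.eLpNorm_eq_integral_rpow_norm (ne_zero_of hp) (ne_top_of hp),
      ENNReal.toReal_ofReal (Real.rpow_nonneg h0 _)]
  refine h1.trans ?_
  calc ∫ x, ‖g x‖ ^ p.toReal = (Np p g) ^ p.toReal := by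
        rw [h2, Real.rpow_inv_rpow h0 (by linarith)]
    _ ≤ c ^ p.toReal := Real.rpow_le_rpow (Np_nonneg _ _) hc (by linarith)

/-- complex continuous functions with compact support -/
theorem cc_all (H : HT p₀ p₁ p₂) : ∃ C : ℝ, 0 ≤ C ∧ ∀ g₀ g₁ g₂ : ℝ × ℝ → ℂ, Continuous g₀ →
    HasCompactSupport g₀ → Continuous g₁ → HasCompactSupport g₁ → Continuous g₂ →
    HasCompactSupport g₂ → ∀ c₀ c₁ c₂ : ℝ, 0 < c₀ → 0 < c₁ → 0 < c₂ → Np p₀ g₀ ≤ c₀ →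
    Np p₁ g₁ ≤ c₁ → Np p₂ g₂ ≤ c₂ → ∀ ε R : ℝ, 0 < ε → ε < R →
      ‖T ε R g₀ g₁ g₂‖ ≤ C * (c₀ * c₁ * c₂) := by
  obtain ⟨D, hD0, hD⟩ := real_all H.g0 H.g1 H.g2 H.s
  refine ⟨8 * D, by positivity,
    fun g₀ g₁ g₂ c0 s0 c1 s1 c2 s2 c₀ c₁ c₂ n0 n1 n2 b0 b1 b2 ε R hε hR => ?_⟩
  have k0 : MemLp g₀ p₀ volume := c0.memLp_of_hasCompactSupport s0
  have k1 : MemLp g₁ p₁ volume := c1.memLp_of_hasCompactSupport s1
  have k2 : MemLp g₂ p₂ volume := c2.memLp_of_hasCompactSupport s2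
  have l1 : MemLp g₁ 3 volume := c1.memLp_of_hasCompactSupport s1
  have l2 : MemLp g₂ 3 volume := c2.memLp_of_hasCompactSupport s2
  have real : ∀ a b c : ℝ × ℝ → ℝ, CC a → CC b → CC c → (∀ x, |a x| ≤ ‖g₀ x‖) →
      (∀ x, |b x| ≤ ‖g₁ x‖) → (∀ x, |c x| ≤ ‖g₂ x‖) →
      ‖T ε R (up a) (up b) (up c)‖ ≤ D * (c₀ * c₁ * c₂) := by
    intro a b c ha hb hc ua ub uc
    rw [T_up ha hb hc hε hR, Complex.norm_real, Real.norm_eq_abs]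
    exact hD a b c ha hb hc c₀ c₁ c₂ n0 n1 n2 (Ip_le H.g0 k0 ua b0) (Ip_le H.g1 k1 ub b1)
      (Ip_le H.g2 k2 uc b2) ε R hε hR
  have ur : ∀ (g : ℝ × ℝ → ℂ) x, |rp g x| ≤ ‖g x‖ := fun g x => Complex.abs_re_le_norm _
  have ui : ∀ (g : ℝ × ℝ → ℂ) x, |ip g x| ≤ ‖g x‖ := fun g x => Complex.abs_im_le_norm _
  have A2 : ∀ a b : ℝ × ℝ → ℝ, CC a → CC b → (∀ x, |a x| ≤ ‖g₀ x‖) → (∀ x, |b x| ≤ ‖g₁ x‖) →
      ‖T ε R (up a) (up b) g₂‖ ≤ 2 * D * (c₀ * c₁ * c₂) := by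
    intro a b ha hb ua ub
    refine two_le (split2 hε (cc_memLp ha) (cc_memLp hb) c2 s2)
      (real a b _ ha hb (cc_rp c2 s2) ua ub (ur _)) (real a b _ ha hb (cc_ip c2 s2) ua ub (ui _)) ?_
    linarith
  have A1 : ∀ a : ℝ × ℝ → ℝ, CC a → (∀ x, |a x| ≤ ‖g₀ x‖) →
      ‖T ε R (up a) g₁ g₂‖ ≤ 4 * D * (c₀ * c₁ * c₂) := by
    intro a ha ua
    refine two_le (split1 hε (cc_memLp ha) c1 s1 l2)
      (A2 a _ ha (cc_rp c1 s1) ua (ur _)) (A2 a _ ha (cc_ip c1 s1) ua (ui _)) ?_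
    linarith
  refine two_le (split0 hε c0 s0 l1 l2) (A1 _ (cc_rp c0 s0) (ur _)) (A1 _ (cc_ip c0 s0) (ui _)) ?_
  linarith

/-- all exponents above two -/
theorem full_all (H : HT p₀ p₁ p₂) : ∃ C : ℝ, 0 ≤ C ∧ ∀ G₀ G₁ G₂ : ℝ × ℝ → ℂ,
    MemLp G₀ p₀ volume → MemLp G₁ p₁ volume → MemLp G₂ p₂ volume → ∀ ε R : ℝ, 0 < ε → ε < R →
      ‖T ε R G₀ G₁ G₂‖ ≤ C * (Np p₀ G₀ * Np p₁ G₁ * Np p₂ G₂) := by
  obtain ⟨C, hC, hcc⟩ := cc_all H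
  refine ⟨C, hC, fun G₀ G₁ G₂ h0 h1 h2 ε R hε hεR => ?_⟩
  have hR : 0 < R := hε.trans hεR
  set B : ℝ := 2 * R / ε with hB
  have hB0 : 0 ≤ B := by positivity
  set Ψ : ℝ → ℝ := fun δ => C * ((Np p₀ G₀ + δ) * (Np p₁ G₁ + δ) * (Np p₂ G₂ + δ)) +
    (B * (δ * Np p₁ G₁ * Np p₂ G₂) + B * ((Np p₀ G₀ + δ) * δ * Np p₂ G₂)
      + B * ((Np p₀ G₀ + δ) * (Np p₁ G₁ + δ) * δ)) with hΨ
  have key : ∀ δ : ℝ, 0 < δ → ‖T ε R G₀ G₁ G₂‖ ≤ Ψ δ := by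
    intro δ hδ
    have hδ' : ENNReal.ofReal δ ≠ 0 := (ENNReal.ofReal_pos.2 hδ).ne'
    obtain ⟨g₀, c0, d0, r0, k0⟩ := h0.exists_hasCompactSupport_eLpNorm_sub_le (ne_top_of H.g0) hδ'
    obtain ⟨g₁, c1, d1, r1, k1⟩ := h1.exists_hasCompactSupport_eLpNorm_sub_le (ne_top_of H.g1) hδ'
    obtain ⟨g₂, c2, d2, r2, k2⟩ := h2.exists_hasCompactSupport_eLpNorm_sub_le (ne_top_of H.g2) hδ'
    have f0 : Np p₀ (G₀ - g₀) ≤ δ := ENNReal.toReal_le_of_le_ofReal hδ.le d0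
    have f1 : Np p₁ (G₁ - g₁) ≤ δ := ENNReal.toReal_le_of_le_ofReal hδ.le d1
    have f2 : Np p₂ (G₂ - g₂) ≤ δ := ENNReal.toReal_le_of_le_ofReal hδ.le d2
    have n0 := Np_le_add H.g0 h0 k0 f0
    have n1 := Np_le_add H.g1 h1 k1 f1
    have n2 := Np_le_add H.g2 h2 k2 f2
    have p0 := Np_nonneg p₀ g₀
    have p1 := Np_nonneg p₁ g₁
    have p2 := Np_nonneg p₂ g₂
    have P0 := Np_nonneg p₀ G₀
    have P1 := Np_nonneg p₁ G₁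
    have P2 := Np_nonneg p₂ G₂
    have s0 := Np_nonneg p₀ (G₀ - g₀)
    have s1 := Np_nonneg p₁ (G₁ - g₁)
    have s2 := Np_nonneg p₂ (G₂ - g₂)
    rw [T_diff H hε h0 h1 h2 k0 k1 k2]
    have t0 := hcc g₀ g₁ g₂ r0 c0 r1 c1 r2 c2 _ _ _ (by positivity) (by positivity)
      (by positivity) n0 n1 n2 ε R hε hεR
    have t1 := T_le H (R := R) hε hR (h0.sub k0) h1 h2
    have t2 := T_le H (R := R) hε hR k0 (h1.sub k1) h2
    have t3 := T_le H (R := R) hε hR k0 k1 (h2.sub k2)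
    refine (norm_add_le _ _).trans (add_le_add t0 ((norm_add_le _ _).trans
      (add_le_add ((norm_add_le _ _).trans (add_le_add ?_ ?_)) ?_)))
    · refine t1.trans ?_
      gcongr
    · refine t2.trans ?_
      gcongr
    · refine t3.trans ?_
      gcongr
  have hcont : Continuous Ψ := by
    rw [hΨ]
    fun_prop
  have hlim : Tendsto Ψ (𝓝[>] 0) (𝓝 (Ψ 0)) := (hcont.tendsto 0).mono_left nhdsWithin_le_nhds
  have := ge_of_tendsto hlim (eventually_nhdsWithin_of_forall key)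
  refine this.trans (le_of_eq ?_)
  simp [hΨ]

end Vale.Agent.N075X
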