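import Vale.Agent.P075.R.Final

/-!
# P075: the local forms of boxes on which the three functions have bounded mean square
-/

set_option linter.unusedSectionVars false

namespace Vale.Agent.N075X

open MeasureTheory Matrix Filter Topology Vale.Agent.P075 Vale.Agent.P075.R
  Vale.Agent.P075.R.H908

section mat

variable {n : Type*} [Fintype n] [DecidableEq n]

theorem sub_phi_psd {X : Matrix n n ℝ} (hX : X.PosSemidef) : (X - phi X).PosSemidef := by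
  have h : X - phi X = X * res X * X := by
    rw [Matrix.mul_assoc, res_mul hX, Matrix.mul_sub, Matrix.mul_one, mul_res_phi hX]
  rw [h]
  exact psd_conj_symm (res_psd hX) (psd_isSymm hX)

theorem two_phi_sub_psd {X : Matrix n n ℝ} (hX : X.PosSemidef) (h1 : (1 - X).PosSemidef) :
    ((2 : ℝ) • phi X - X).PosSemidef := by
  obtain ⟨B, hB, hBX⟩ := exists_sq hX
  have hBs := psd_isSymm hB
  have h2 : (1 - X * X).PosSemidef := by
    have e : 1 - X * X = (1 - X) + B * (1 - X) * B := by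
      rw [← hBX]; noncomm_ring
    rw [e]
    exact h1.add (psd_conj_symm h1 hBs)
  have h3 : (X - X * X * X).PosSemidef := by
    have e : X - X * X * X = B * (1 - X * X) * B := by
      rw [← hBX]; noncomm_ring
    rw [e]
    exact psd_conj_symm h2 hBs
  have h4 := psd_conj_symm h3 (res_symm hX)
  have e : res X * (X - X * X * X) * res X = (2 : ℝ) • phi X - X := by
    have a1 : X - X * X * X = X * (1 - X) * (1 + X) := by noncomm_ring
    have a2 : res X * (X * (1 - X) * (1 + X)) * res X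
        = (res X * X) * (1 - X) * ((1 + X) * res X) := by simp only [Matrix.mul_assoc]
    rw [a1, a2, one_add_mul_res hX, Matrix.mul_one, res_mul hX]
    have a3 : (1 - res X) * (1 - X) = 1 - res X - X + res X * X := by noncomm_ring
    rw [a3, res_mul hX, phi, two_smul]
    abel
  rwa [e] at h4

theorem phi_smul_le {X : Matrix n n ℝ} (hX : X.PosSemidef) (h1 : (1 - X).PosSemidef) {c : ℝ}
    (hc : 0 ≤ c) : ((2 * c) • phi X - phi (c • X)).PosSemidef := by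
  have a := sub_phi_psd (hX.smul hc)
  have b := (two_phi_sub_psd hX h1).smul hc
  have e : (2 * c) • phi X - phi (c • X)
      = c • ((2 : ℝ) • phi X - X) + (c • X - phi (c • X)) := by module
  rw [e]
  exact b.add a

/-- sum of the squares of the entries -/
def hs (F : Matrix n n ℝ) : ℝ := ∑ i, ∑ j, F i j ^ 2

theorem hs_transpose (F : Matrix n n ℝ) : hs Fᵀ = hs F := by
  unfold hs
  rw [Finset.sum_comm]
  rfl

theorem one_sub_gramC {μ : ℝ} (hμ : 0 ≤ μ) {F : Matrix n n ℝ} (h : μ * hs F ≤ 1) :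
    (1 - gramC μ F).PosSemidef := by
  refine PosSemidef.of_dotProduct_mulVec_nonneg
    (isHermitian_one.sub (gramC_psd hμ F).1) fun x => ?_
  have e : star x ⬝ᵥ ((1 - gramC μ F) *ᵥ x) = ∑ j, x j ^ 2 - μ * ∑ i, (∑ j, F i j * x j) ^ 2 := by
    rw [Matrix.sub_mulVec, dotProduct_sub, Matrix.one_mulVec, gramC, Matrix.smul_mulVec,
      dotProduct_smul, ← Matrix.mulVec_mulVec, Matrix.dotProduct_mulVec, star_trivial,
      Matrix.vecMul_transpose, smul_eq_mul]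
    simp only [dotProduct, Matrix.mulVec, sq]
  rw [e]
  have h2 : ∑ i, (∑ j, F i j * x j) ^ 2 ≤ hs F * ∑ j, x j ^ 2 := by
    unfold hs
    rw [Finset.sum_mul]
    exact Finset.sum_le_sum fun i _ => Finset.sum_mul_sq_le_sq_mul_sq _ _ _
  have h3 : 0 ≤ ∑ j, x j ^ 2 := Finset.sum_nonneg fun j _ => sq_nonneg _
  have h4 := mul_le_mul_of_nonneg_left h2 hμ
  have h5 := mul_le_mul_of_nonneg_right h h3
  nlinarith

theorem one_sub_gramR {μ : ℝ} (hμ : 0 ≤ μ) {F : Matrix n n ℝ} (h : μ * hs F ≤ 1) :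
    (1 - gramR μ F).PosSemidef := by
  have := one_sub_gramC (F := Fᵀ) hμ (by rwa [hs_transpose])
  rwa [gramC, transpose_transpose] at this

theorem gramR_smul (c μ : ℝ) (F : Matrix n n ℝ) : gramR (c * μ) F = c • gramR μ F := by
  rw [gramR, gramR, mul_smul]

theorem MnG_nonneg {r : Matrix n n ℝ} (hr : rᵀ = r) {μ : ℝ} (hμ : 0 ≤ μ) (F H : Matrix n n ℝ) :
    0 ≤ MnG r μ F H :=
  trace_mul_nonneg (phi_psd (gramC_psd hμ F)) (psd_conj_symm (phi_psd (gramR_psd hμ H)) hr)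

theorem MnG_scale {r : Matrix n n ℝ} (hr : rᵀ = r) {μ c : ℝ} (hμ : 0 ≤ μ) (hc : 0 ≤ c)
    {F H : Matrix n n ℝ} (hF : μ * hs F ≤ 1) (hH : μ * hs H ≤ 1) :
    MnG r (c * μ) F H ≤ 4 * c ^ 2 * MnG r μ F H := by
  have hX := gramC_psd hμ F
  have hY := gramR_psd hμ H
  have a := phi_smul_le hX (one_sub_gramC hμ hF) hc
  have b := phi_smul_le hY (one_sub_gramR hμ hH) hc
  rw [MnG, MnG, gramC_smul, gramR_smul]
  have i1 : (phi (c • gramC μ F) * (r * phi (c • gramR μ H) * r)).trace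
      ≤ (((2 * c) • phi (gramC μ F)) * (r * phi (c • gramR μ H) * r)).trace :=
    trace_mul_le_left (psd_conj_symm (phi_psd (hY.smul hc)) hr) a
  have i2 : (((2 * c) • phi (gramC μ F)) * (r * phi (c • gramR μ H) * r)).trace
      ≤ (((2 * c) • phi (gramC μ F)) * (r * ((2 * c) • phi (gramR μ H)) * r)).trace := by
    refine trace_mul_le_right ((phi_psd hX).smul (by positivity)) ?_
    have := psd_conj_symm b hr
    rwa [Matrix.mul_sub, Matrix.sub_mul] at this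
  refine (i1.trans i2).trans (le_of_eq ?_)
  simp only [Matrix.mul_smul, Matrix.smul_mul, trace_smul, smul_eq_mul]
  ring

theorem M3_nonneg {r : Matrix n n ℝ} (hr : rᵀ = r) {μ : ℝ} (hμ : 0 ≤ μ)
    (F₀ F₁ F₂ : Matrix n n ℝ) : 0 ≤ M3 r μ F₀ F₁ F₂ :=
  add_nonneg (add_nonneg (MnG_nonneg hr hμ _ _) (MnG_nonneg hr hμ _ _)) (MnG_nonneg hr hμ _ _)

theorem M3_scale {r : Matrix n n ℝ} (hr : rᵀ = r) {μ c : ℝ} (hμ : 0 ≤ μ) (hc : 0 ≤ c)
    {F₀ F₁ F₂ : Matrix n n ℝ} (h0 : μ * hs F₀ ≤ 1) (h1 : μ * hs F₁ ≤ 1) (h2 : μ * hs F₂ ≤ 1) :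
    M3 r (c * μ) F₀ F₁ F₂ ≤ 4 * c ^ 2 * M3 r μ F₀ F₁ F₂ := by
  have a := MnG_scale hr hμ hc h0 h1
  have b := MnG_scale hr hμ hc h1 h2
  have d := MnG_scale hr hμ hc h2 h0
  unfold M3
  linarith

end mat

theorem muk_scale (k : ℕ) {τ : ℝ} (hτ : 0 < τ) : muk k τ = (τ ^ 2)⁻¹ * muk k 1 := by
  unfold muk
  field_simp

/-- pointwise bound for three matrices of bounded mean square: only the levels `≤ 1` matter -/
theorem T3_small (k J : ℕ) {F₀ F₁ F₂ : Matrix (Ix k ⊕ Ix k) (Ix k ⊕ Ix k) ℝ}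
    (h0 : muk (k + 1) 1 * hs F₀ ≤ 1) (h1 : muk (k + 1) 1 * hs F₁ ≤ 1)
    (h2 : muk (k + 1) 1 * hs F₂ ≤ 1) :
    ((8 : ℝ) ^ (k + 1))⁻¹ * |T3 (rad (Ix k)) F₀ F₁ F₂|
      ≤ ((8 : ℝ) ^ (k + 1))⁻¹ * err (k + 1) (rad (Ix k)) ((2 : ℝ) ^ J)⁻¹ (2 * J) F₀ F₁ F₂
        + ∑ j ∈ Finset.range J, (3 / 2) * (((2 : ℝ) ^ J)⁻¹ * 2 ^ (j + 1)) ^ 3 *
          M3 (rad (Ix k)) (muk (k + 1) (((2 : ℝ) ^ J)⁻¹ * 2 ^ (j + 1))) F₀ F₁ F₂
        + 6 * M3 (rad (Ix k)) (muk (k + 1) 1) F₀ F₁ F₂ := by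
  have hs0 : (0 : ℝ) < ((2 : ℝ) ^ J)⁻¹ := by positivity
  have h := T3_pt k hs0 (2 * J) F₀ F₁ F₂
  rw [two_mul J, Finset.sum_range_add, ← two_mul J] at h
  have hM := M3_nonneg (rad_symm (m := Ix k)) (muk_nonneg (k + 1) 1) F₀ F₁ F₂
  have hi : ∀ i ∈ Finset.range J, (3 / 2) * (((2 : ℝ) ^ J)⁻¹ * 2 ^ (J + i + 1)) ^ 3 *
      M3 (rad (Ix k)) (muk (k + 1) (((2 : ℝ) ^ J)⁻¹ * 2 ^ (J + i + 1))) F₀ F₁ F₂
      ≤ 6 * M3 (rad (Ix k)) (muk (k + 1) 1) F₀ F₁ F₂ * ((1 / 2) ^ i - (1 / 2) ^ (i + 1)) := by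
    intro i _
    have e : ((2 : ℝ) ^ J)⁻¹ * 2 ^ (J + i + 1) = 2 ^ (i + 1) := by
      rw [add_assoc, pow_add]; field_simp
    rw [e, muk_scale (k + 1) (by positivity : (0 : ℝ) < 2 ^ (i + 1))]
    have a := M3_scale (rad_symm (m := Ix k)) (muk_nonneg (k + 1) 1)
      (c := (((2 : ℝ) ^ (i + 1)) ^ 2)⁻¹) (by positivity) h0 h1 h2
    refine (mul_le_mul_of_nonneg_left a (by positivity)).trans (le_of_eq ?_)
    have e2 : ((1 : ℝ) / 2) ^ i - (1 / 2) ^ (i + 1) = ((2 : ℝ) ^ (i + 1))⁻¹ := by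
      rw [← inv_pow, ← one_div, pow_succ]; ring
    rw [e2]
    generalize M3 (rad (Ix k)) (muk (k + 1) 1) F₀ F₁ F₂ = M
    field_simp
    ring
  have hsum := Finset.sum_le_sum hi
  rw [← Finset.mul_sum, Finset.sum_range_sub' (fun i => ((1 : ℝ) / 2) ^ i)] at hsum
  have hp : (0 : ℝ) ≤ (1 / 2) ^ J := by positivity
  have : 6 * M3 (rad (Ix k)) (muk (k + 1) 1) F₀ F₁ F₂ * ((1 / 2) ^ 0 - (1 / 2) ^ J)
      ≤ 6 * M3 (rad (Ix k)) (muk (k + 1) 1) F₀ F₁ F₂ := by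
    rw [pow_zero]; nlinarith
  linarith

/-! ### the boxes on the plane -/

/-- the plane of scale `k` -/
noncomputable def sk (η : ℝ) (k : ℕ) : ℝ := -3 * 2 ^ k * η

/-- the local form of the box with corner `p` at scale `k` -/
noncomputable def tri (η : ℝ) (k : ℕ) (G₀ G₁ G₂ : ℝ × ℝ → ℝ) (p : ℝ × ℝ) : ℝ :=
  ((8 : ℝ) ^ (k + 1))⁻¹ * |T3 (rad (Ix k)) (smp' η k G₀ p) (smp' η k G₁ (rot (sk η k) p))
    (smp' η k G₂ (rot (sk η k) (rot (sk η k) p)))|

/-- the boxes on which the three mean squares are at most one -/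
def small (η : ℝ) (k : ℕ) (G₀ G₁ G₂ : ℝ × ℝ → ℝ) : Set (ℝ × ℝ) :=
  {p | muk (k + 1) 1 * hs (smp' η k G₀ p) ≤ 1 ∧
    muk (k + 1) 1 * hs (smp' η k G₁ (rot (sk η k) p)) ≤ 1 ∧
    muk (k + 1) 1 * hs (smp' η k G₂ (rot (sk η k) (rot (sk η k) p))) ≤ 1}

/-- the three main terms -/
noncomputable def m3 (η τ : ℝ) (k : ℕ) (G₀ G₁ G₂ : ℝ × ℝ → ℝ) (p : ℝ × ℝ) : ℝ :=
  M3 (rad (Ix k)) (muk (k + 1) τ) (smp' η k G₀ p) (smp' η k G₁ (rot (sk η k) p))
    (smp' η k G₂ (rot (sk η k) (rot (sk η k) p)))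

/-- the error term -/
noncomputable def er (η : ℝ) (k J : ℕ) (G₀ G₁ G₂ : ℝ × ℝ → ℝ) (p : ℝ × ℝ) : ℝ :=
  err (k + 1) (rad (Ix k)) ((2 : ℝ) ^ J)⁻¹ (2 * J) (smp' η k G₀ p)
    (smp' η k G₁ (rot (sk η k) p)) (smp' η k G₂ (rot (sk η k) (rot (sk η k) p)))

/-- integral of the square -/
noncomputable def I2 (G : ℝ × ℝ → ℝ) : ℝ := ∫ p, G p ^ 2

variable {G₀ G₁ G₂ : ℝ × ℝ → ℝ}

theorem cont_hs {α n : Type*} [TopologicalSpace α] [Fintype n] {A : α → Matrix n n ℝ}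
    (hA : Continuous A) : Continuous fun a => hs (A a) := by
  unfold hs
  refine continuous_finsetSum _ fun i _ => continuous_finsetSum _ fun j _ => ?_
  exact (hA.matrix_elem i j).pow 2

theorem cont_tri (η : ℝ) (k : ℕ) (h0 : Continuous G₀) (h1 : Continuous G₁) (h2 : Continuous G₂) :
    Continuous (tri η k G₀ G₁ G₂) :=
  continuous_const.mul (cont_T3 (cont_smp' η k h0) ((cont_smp' η k h1).comp (cont_rot _))
    ((cont_smp' η k h2).comp ((cont_rot _).comp (cont_rot _))) _).abs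

theorem meas_small (η : ℝ) (k : ℕ) (h0 : Continuous G₀) (h1 : Continuous G₁)
    (h2 : Continuous G₂) : MeasurableSet (small η k G₀ G₁ G₂) := by
  have a := cont_hs (cont_smp' η k h0)
  have b := cont_hs ((cont_smp' η k h1).comp (cont_rot (sk η k)))
  have c := cont_hs ((cont_smp' η k h2).comp ((cont_rot (sk η k)).comp (cont_rot (sk η k))))
  exact ((isClosed_le (continuous_const.mul a) continuous_const).inter
    ((isClosed_le (continuous_const.mul b) continuous_const).inter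
      (isClosed_le (continuous_const.mul c) continuous_const))).measurableSet

theorem m3_eq (η τ : ℝ) (k : ℕ) (p : ℝ × ℝ) : m3 η τ k G₀ G₁ G₂ p
    = mn η τ k G₀ G₁ (sk η k) p + mn η τ k G₁ G₂ (sk η k) (rot (sk η k) p)
      + mn η τ k G₂ G₀ (sk η k) (rot (sk η k) (rot (sk η k) p)) := by
  have e3 := MnG_smp' η τ k G₂ G₀ (sk η k) (rot (sk η k) (rot (sk η k) p))
  rw [rot_three] at e3
  rw [m3, M3, MnG_smp', MnG_smp', e3]

theorem m3_int (h0 : CC G₀) (h1 : CC G₁) (h2 : CC G₂) (η τ : ℝ) (k : ℕ) :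
    Integrable (m3 η τ k G₀ G₁ G₂) ∧ ∫ p, m3 η τ k G₀ G₁ G₂ p
      = (∫ p, mn η τ k G₀ G₁ (sk η k) p) + (∫ p, mn η τ k G₁ G₂ (sk η k) p)
        + ∫ p, mn η τ k G₂ G₀ (sk η k) p := by
  have i0 := ii_mn h0 h1 η τ k (sk η k)
  have i1 : Integrable fun p => mn η τ k G₁ G₂ (sk η k) (rot (sk η k) p) :=
    (mp_rot _).integrable_comp_of_integrable (ii_mn h1 h2 η τ k (sk η k))
  have i2 : Integrable fun p => mn η τ k G₂ G₀ (sk η k) (rot (sk η k) (rot (sk η k) p)) :=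
    ((mp_rot _).comp (mp_rot _)).integrable_comp_of_integrable (ii_mn h2 h0 η τ k (sk η k))
  have e : m3 η τ k G₀ G₁ G₂ = fun p => mn η τ k G₀ G₁ (sk η k) p
      + mn η τ k G₁ G₂ (sk η k) (rot (sk η k) p)
      + mn η τ k G₂ G₀ (sk η k) (rot (sk η k) (rot (sk η k) p)) := funext (m3_eq η τ k)
  have i01 : Integrable fun p => mn η τ k G₀ G₁ (sk η k) p
      + mn η τ k G₁ G₂ (sk η k) (rot (sk η k) p) := i0.add i1
  rw [e]
  refine ⟨i01.add i2, ?_⟩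
  rw [integral_add i01 i2, integral_add i0 i1, int_rot _ (cont_mn η τ k h1.1 h2.1 _),
    int_rot (sk η k) (f := fun p => mn η τ k G₂ G₀ (sk η k) (rot (sk η k) p))
      ((cont_mn η τ k h2.1 h0.1 _).comp (cont_rot _)), int_rot _ (cont_mn η τ k h2.1 h0.1 _)]

theorem I2_nonneg (G : ℝ × ℝ → ℝ) : 0 ≤ I2 G := integral_nonneg fun _ => sq_nonneg _

theorem I2_int {G : ℝ × ℝ → ℝ} (hG : CC G) : Integrable fun p => G p ^ 2 := by
  refine integrable_cs (by have := hG.1; fun_prop) ?_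
  refine hG.2.mono ?_
  intro p hp
  simp only [Function.mem_support] at hp ⊢
  intro h0
  apply hp
  rw [h0]
  simp

theorem hh_int_le {G : ℝ × ℝ → ℝ} (hG : CC G) (τ : ℝ) :
    ∫ p, hh (G p ^ 2 / τ ^ 2) ≤ I2 G / τ ^ 2 := by
  rw [I2, ← integral_div]
  refine integral_mono (hh_int hG τ) ((I2_int hG).div_const _) fun p => ?_
  have hu : 0 ≤ G p ^ 2 / τ ^ 2 := by positivity
  generalize G p ^ 2 / τ ^ 2 = u at hu
  simp only [hh]
  rw [div_le_iff₀ (by positivity)]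
  nlinarith

theorem m3_sum (h0 : CC G₀) (h1 : CC G₁) (h2 : CC G₂) {η τ : ℝ} (hη : 0 < η) (hτ : 0 < τ)
    (N : ℕ) : ∑ k ∈ Finset.Icc 1 N, ∫ p, m3 η τ k G₀ G₁ G₂ p
      ≤ 90 * (I2 G₀ + I2 G₁ + I2 G₂) / τ ^ 2 := by
  have b1 := step G₀ G₁ h0 h1 η τ hη hτ N
  have b2 := step G₁ G₂ h1 h2 η τ hη hτ N
  have b3 := step G₂ G₀ h2 h0 η τ hη hτ N
  have c0 := hh_int_le h0 τ
  have c1 := hh_int_le h1 τ
  have c2 := hh_int_le h2 τ
  simp only [fun k => (m3_int h0 h1 h2 η τ k).2, Finset.sum_add_distrib, sk]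
  rw [mul_div_assoc, add_div, add_div]
  linarith

theorem er_int (h0 : CC G₀) (h1 : CC G₁) (h2 : CC G₂) (η : ℝ) (k J : ℕ) :
    Integrable (er η k J G₀ G₁ G₂) :=
  integrable_cs (cont_err k _ _ (cont_smp' η k h0.1) ((cont_smp' η k h1.1).comp (cont_rot _))
    ((cont_smp' η k h2.1).comp ((cont_rot _).comp (cont_rot _))))
    (hcs_of_zero (hcs_smp' η k h0.2) fun p hp => by rw [er, hp, err_zero_left])

theorem er_nonneg (η : ℝ) (k J : ℕ) (p : ℝ × ℝ) : 0 ≤ er η k J G₀ G₁ G₂ p := by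
  unfold er err
  positivity

theorem m3_nonneg (η τ : ℝ) (k : ℕ) (p : ℝ × ℝ) : 0 ≤ m3 η τ k G₀ G₁ G₂ p :=
  M3_nonneg rad_symm (muk_nonneg _ _) _ _ _

/-- the local forms of all boxes of bounded mean square are summable with an `L²` bound -/
theorem key (h0 : CC G₀) (h1 : CC G₁) (h2 : CC G₂) {η : ℝ} (hη : 0 < η) (N : ℕ) :
    ∑ k ∈ Finset.Icc 1 N, ∫⁻ p, (small η k G₀ G₁ G₂).indicator
        (fun p => ENNReal.ofReal (tri η k G₀ G₁ G₂ p)) p
      ≤ ENNReal.ofReal (810 * (I2 G₀ + I2 G₁ + I2 G₂)) := by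
  set S := I2 G₀ + I2 G₁ + I2 G₂ with hS
  have hS0 : 0 ≤ S := add_nonneg (add_nonneg (I2_nonneg _) (I2_nonneg _)) (I2_nonneg _)
  set E : ℕ → ℝ := fun J => ∑ k ∈ Finset.Icc 1 N, ((8 : ℝ) ^ (k + 1))⁻¹ *
    ∫ p, er η k J G₀ G₁ G₂ p with hE
  have hE0 : Tendsto E atTop (𝓝 0) := by
    have : Tendsto E atTop (𝓝 (∑ k ∈ Finset.Icc 1 N, ((8 : ℝ) ^ (k + 1))⁻¹ * 0)) := by
      refine tendsto_finsetSum _ fun k _ => Tendsto.const_mul _ ?_
      exact err_int_tendsto k (cont_smp' η k h0.1) ((cont_smp' η k h1.1).comp (cont_rot _))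
        ((cont_smp' η k h2.1).comp ((cont_rot _).comp (cont_rot _))) (hcs_smp' η k h0.2)
    simpa using this
  have main : ∀ J : ℕ, ∑ k ∈ Finset.Icc 1 N, ∫⁻ p, (small η k G₀ G₁ G₂).indicator
        (fun p => ENNReal.ofReal (tri η k G₀ G₁ G₂ p)) p ≤ ENNReal.ofReal (E J + 810 * S) := by
    intro J
    set τ : ℕ → ℝ := fun j => ((2 : ℝ) ^ J)⁻¹ * 2 ^ (j + 1) with hτ
    have hτ0 : ∀ j, 0 < τ j := fun j => by simp only [hτ]; positivity
    set R : ℕ → ℝ × ℝ → ℝ := fun k p => ((8 : ℝ) ^ (k + 1))⁻¹ * er η k J G₀ G₁ G₂ p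
      + ∑ j ∈ Finset.range J, (3 / 2) * τ j ^ 3 * m3 η (τ j) k G₀ G₁ G₂ p
      + 6 * m3 η 1 k G₀ G₁ G₂ p with hR
    have hR0 : ∀ k p, 0 ≤ R k p := fun k p =>
      add_nonneg (add_nonneg (mul_nonneg (by positivity) (er_nonneg ..))
        (Finset.sum_nonneg fun j _ => mul_nonneg (by have := hτ0 j; positivity) (m3_nonneg ..)))
        (mul_nonneg (by norm_num) (m3_nonneg ..))
    have iA : ∀ k, Integrable fun p => ((8 : ℝ) ^ (k + 1))⁻¹ * er η k J G₀ G₁ G₂ p :=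
      fun k => (er_int h0 h1 h2 η k J).const_mul _
    have iB : ∀ k j, Integrable fun p => (3 / 2) * τ j ^ 3 * m3 η (τ j) k G₀ G₁ G₂ p :=
      fun k j => (m3_int h0 h1 h2 η (τ j) k).1.const_mul _
    have iB' : ∀ k, Integrable fun p =>
        ∑ j ∈ Finset.range J, (3 / 2) * τ j ^ 3 * m3 η (τ j) k G₀ G₁ G₂ p :=
      fun k => integrable_finsetSum _ fun j _ => iB k j
    have iC : ∀ k, Integrable fun p => 6 * m3 η 1 k G₀ G₁ G₂ p :=
      fun k => (m3_int h0 h1 h2 η 1 k).1.const_mul _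
    have iAB : ∀ k, Integrable fun p => ((8 : ℝ) ^ (k + 1))⁻¹ * er η k J G₀ G₁ G₂ p
        + ∑ j ∈ Finset.range J, (3 / 2) * τ j ^ 3 * m3 η (τ j) k G₀ G₁ G₂ p :=
      fun k => (iA k).add (iB' k)
    have hk : ∀ k, ∫⁻ p, (small η k G₀ G₁ G₂).indicator
        (fun p => ENNReal.ofReal (tri η k G₀ G₁ G₂ p)) p ≤ ENNReal.ofReal (∫ p, R k p) := by
      intro k
      have iR : Integrable (R k) := (iAB k).add (iC k)
      rw [ofReal_integral_eq_lintegral_ofReal iR (ae_of_all _ (hR0 k))]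
      refine lintegral_mono fun p => ?_
      by_cases hp : p ∈ small η k G₀ G₁ G₂
      · rw [Set.indicator_of_mem hp]
        exact ENNReal.ofReal_le_ofReal (T3_small k J hp.1 hp.2.1 hp.2.2)
      · rw [Set.indicator_of_notMem hp]
        exact zero_le
    refine (Finset.sum_le_sum fun k _ => hk k).trans ?_
    rw [← ENNReal.ofReal_sum_of_nonneg fun k _ => integral_nonneg (hR0 k)]
    refine ENNReal.ofReal_le_ofReal ?_
    have hI : ∀ k, ∫ p, R k p = ((8 : ℝ) ^ (k + 1))⁻¹ * (∫ p, er η k J G₀ G₁ G₂ p)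
        + ∑ j ∈ Finset.range J, (3 / 2) * τ j ^ 3 * (∫ p, m3 η (τ j) k G₀ G₁ G₂ p)
        + 6 * ∫ p, m3 η 1 k G₀ G₁ G₂ p := by
      intro k
      simp only [hR]
      rw [integral_add (iAB k) (iC k), integral_add (iA k) (iB' k),
        integral_finsetSum _ fun j _ => iB k j]
      simp only [integral_const_mul]
    simp only [hI, Finset.sum_add_distrib]
    rw [Finset.sum_comm, ← Finset.mul_sum]
    have c1 := m3_sum h0 h1 h2 hη one_pos N
    rw [one_pow, div_one, ← hS] at c1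
    have c2 : ∀ j ∈ Finset.range J, ∑ k ∈ Finset.Icc 1 N,
        (3 / 2) * τ j ^ 3 * (∫ p, m3 η (τ j) k G₀ G₁ G₂ p) ≤ 135 * S * (τ (j + 1) - τ j) := by
      intro j _
      rw [← Finset.mul_sum]
      have a := m3_sum h0 h1 h2 hη (hτ0 j) N
      rw [← hS] at a
      have hj := hτ0 j
      refine (mul_le_mul_of_nonneg_left a (by positivity)).trans (le_of_eq ?_)
      have e : τ (j + 1) - τ j = τ j := by simp only [hτ]; ring
      rw [e]
      field_simp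
      ring
    have c3 := Finset.sum_le_sum c2
    rw [← Finset.mul_sum, Finset.sum_range_sub τ] at c3
    have c4 : τ J - τ 0 ≤ 2 := by
      have e : τ J = 2 := by simp only [hτ]; rw [pow_succ]; field_simp
      have := hτ0 0
      linarith
    have c5 : 135 * S * (τ J - τ 0) ≤ 135 * S * 2 := by gcongr
    simp only [hE]
    linarith
  have hlim : Tendsto (fun J => ENNReal.ofReal (E J + 810 * S)) atTop
      (𝓝 (ENNReal.ofReal (0 + 810 * S))) :=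
    (ENNReal.continuous_ofReal.tendsto _).comp (hE0.add_const _)
  rw [zero_add] at hlim
  exact ge_of_tendsto' hlim main

end Vale.Agent.N075X
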