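import Vale.Agent.N075X.Cover

/-!
# P075: decomposition of the boxes by the size of the local means
-/

namespace Vale.Agent.N075X

open MeasureTheory Metric Set Filter Topology Matrix Vale.Agent.P075 Vale.Agent.P075.R
  Vale.Agent.P075.R.H908
open scoped ENNReal

/-- the cut and normalised function -/
noncomputable def cut (χ : ℝ × ℝ → ℝ) (σ : ℝ × ℝ → ℝ × ℝ) (τ : ℝ) (G : ℝ × ℝ → ℝ) :
    ℝ × ℝ → ℝ := fun x => (2 * τ)⁻¹ * (χ (σ x) * G x)

theorem cut_cc {χ : ℝ × ℝ → ℝ} {σ : ℝ × ℝ → ℝ × ℝ} (τ : ℝ) {G : ℝ × ℝ → ℝ} (hχ : Continuous χ)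
    (hσ : Continuous σ) (hG : CC G) : CC (cut χ σ τ G) :=
  ⟨continuous_const.mul ((hχ.comp hσ).mul hG.1), hG.2.mul_left.mul_left⟩

theorem sum_one (a : ℕ) : ∑ _i : Ix a, ∑ _j : Ix a, (1 : ℝ) = (2 ^ a) ^ 2 := by
  have h := sum_val a (fun _ => (1 : ℝ))
  simp only [Finset.sum_const, Finset.card_range, nsmul_eq_mul, mul_one] at h ⊢
  rw [h]
  push_cast
  ring

theorem val_le (η : ℝ) (hη : 0 < η) (a : ℕ) (i : Ix a) : η * val a i ≤ 2 ^ a * η := by
  have h : (val a i : ℝ) ≤ 2 ^ a := by exact_mod_cast (val_lt a i).le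
  nlinarith

/-- one function on one box -/
theorem one_box {σ : ℝ × ℝ → ℝ × ℝ} (hσ : MeasurePreserving σ volume volume)
    {Ψ : ℝ × ℝ → ℝ≥0∞} (hΨ : Measurable Ψ) {γ : ℝ × ℝ → ℝ} (hγ : ∀ x, 0 ≤ γ x) {η : ℝ}
    (hη : 0 < η) (hdom : ∀ x y, dist x y ≤ η → ENNReal.ofReal (γ (σ x)) ≤ Ψ (σ y)) (k : ℕ)
    (x : ℝ × ℝ) {B : Set (ℝ × ℝ)} (hBm : MeasurableSet B)
    (hB : ∀ α β : ℝ, 0 ≤ α → α ≤ 2 ^ (k + 1) * η → 0 ≤ β → β ≤ 2 ^ (k + 1) * η →
      σ (x.1 + α, x.2 + β) ∈ B)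
    {χ G : ℝ × ℝ → ℝ} (hχ : ∀ y ∈ B, χ y = 1) {τ l : ℝ} (hτ : 0 < τ) (hl : 0 < l)
    (hG : ∀ y, G y ^ 2 ≤ τ ^ 2 * (1 + γ (σ y) / l))
    (hav : ∫⁻ y in B, Ψ y ≤ ENNReal.ofReal (l * (2 ^ (k + 1) * η) ^ 2)) :
    smp' η k G x = (2 * τ) • smp' η k (cut χ σ τ G) x ∧
      muk (k + 1) 1 * hs (smp' η k (cut χ σ τ G) x) ≤ 1 := by
  have hent : ∀ i j : Ix (k + 1), cut χ σ τ G (x.1 + η * val (k + 1) i, x.2 + η * val (k + 1) j)
      = (2 * τ)⁻¹ * G (x.1 + η * val (k + 1) i, x.2 + η * val (k + 1) j) := by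
    intro i j
    rw [cut, hχ _ (hB _ _ (by positivity) (val_le η hη _ i) (by positivity) (val_le η hη _ j)),
      one_mul]
  constructor
  · ext i j
    have h := hent i j
    change G (x.1 + η * val (k + 1) i, x.2 + η * val (k + 1) j)
      = (2 * τ) * cut χ σ τ G (x.1 + η * val (k + 1) i, x.2 + η * val (k + 1) j)
    rw [h]
    field_simp
  · have h1 := (samp hσ hΨ (u := fun x => γ (σ x)) (fun x => hγ _) hη hdom (k + 1) x hBm hB).trans
      hav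
    rw [ENNReal.ofReal_le_ofReal_iff (by positivity)] at h1
    set S := ∑ i : Ix (k + 1), ∑ j : Ix (k + 1),
      γ (σ (x.1 + η * val (k + 1) i, x.2 + η * val (k + 1) j)) with hS
    have h2 : S ≤ l * (2 ^ (k + 1)) ^ 2 := by
      refine le_of_mul_le_mul_right (h1.trans (le_of_eq ?_)) (by positivity : 0 < η ^ 2)
      ring
    have h3 : hs (smp' η k (cut χ σ τ G) x) ≤ ∑ i : Ix (k + 1), ∑ j : Ix (k + 1),
        (1 / 4) * (1 + γ (σ (x.1 + η * val (k + 1) i, x.2 + η * val (k + 1) j)) / l) := by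
      change ∑ i : Ix (k + 1), ∑ j : Ix (k + 1),
        cut χ σ τ G (x.1 + η * val (k + 1) i, x.2 + η * val (k + 1) j) ^ 2 ≤ _
      refine Finset.sum_le_sum fun i _ => Finset.sum_le_sum fun j _ => ?_
      rw [hent, mul_pow]
      refine (mul_le_mul_of_nonneg_left (hG _) (sq_nonneg _)).trans (le_of_eq ?_)
      field_simp
      ring
    have h4 : ∑ i : Ix (k + 1), ∑ j : Ix (k + 1),
        (1 / 4) * (1 + γ (σ (x.1 + η * val (k + 1) i, x.2 + η * val (k + 1) j)) / l)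
        = (1 / 4) * ((2 ^ (k + 1)) ^ 2 + S / l) := by
      rw [← sum_one (k + 1), hS]
      simp only [← Finset.mul_sum, Finset.sum_add_distrib, Finset.sum_div]
    have h5 : S / l ≤ (2 ^ (k + 1)) ^ 2 := by
      rw [div_le_iff₀ hl]; linarith
    have h6 : (0 : ℝ) < (2 ^ (k + 1)) ^ 2 := by positivity
    rw [muk, mul_one, inv_mul_le_iff₀ h6]
    linarith

/-- the square integral of the cut function -/
theorem cut_I2 {σ : ℝ × ℝ → ℝ × ℝ} (hσ : MeasurePreserving σ volume volume) (hσc : Continuous σ)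
    {Ψ γ χ G : ℝ × ℝ → ℝ} (hΨ : Measurable Ψ) (hγ : ∀ x, 0 ≤ γ x) (hγΨ : ∀ x, γ x ≤ Ψ x)
    (hχc : Continuous χ) (hχ0 : ∀ y, 0 ≤ χ y) (hχ1 : ∀ y, χ y ≤ 1) {V : Set (ℝ × ℝ)}
    (hV : MeasurableSet V) (hχV : ∀ y, y ∉ V → χ y = 0) (hGc : CC G) {τ l : ℝ} (hτ : 0 < τ)
    (hl : 0 < l) (hG : ∀ y, G y ^ 2 ≤ τ ^ 2 * (1 + γ (σ y) / (2 * l))) :
    ENNReal.ofReal (I2 (cut χ σ τ G)) ≤ volume V + ENNReal.ofReal l⁻¹ *
      ∫⁻ y, {y | l / 32 < Ψ y}.indicator (fun y => ENNReal.ofReal (Ψ y)) y := by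
  have hm : Measurable fun y => {y | l / 32 < Ψ y}.indicator (fun y => ENNReal.ofReal (Ψ y)) y :=
    hΨ.ennreal_ofReal.indicator (measurableSet_lt measurable_const hΨ)
  have hm1 : Measurable fun y => V.indicator (fun _ => (1 : ℝ≥0∞)) y :=
    measurable_const.indicator hV
  rw [I2, ofReal_integral_eq_lintegral_ofReal (I2_int (cut_cc τ hχc hσc hGc))
    (ae_of_all _ fun _ => sq_nonneg _), ← lintegral_const_mul _ hm, ← lintegral_indicator_one hV]
  change _ ≤ (∫⁻ y, V.indicator (fun _ => (1 : ℝ≥0∞)) y) + _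
  have hm2 : Measurable fun y => V.indicator (fun _ => (1 : ℝ≥0∞)) y + ENNReal.ofReal l⁻¹ *
      {y | l / 32 < Ψ y}.indicator (fun y => ENNReal.ofReal (Ψ y)) y := hm1.add (hm.const_mul _)
  rw [← lintegral_add_left hm1, ← hσ.lintegral_comp hm2]
  refine lintegral_mono fun x => ?_
  by_cases hx : σ x ∈ V
  swap
  · simp only [cut, hχV _ hx]
    simp
  have h1 : cut χ σ τ G x ^ 2 ≤ (1 / 4) * (1 + Ψ (σ x) / (2 * l)) := by
    have a := hχ0 (σ x)
    have b := hχ1 (σ x)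
    have c : χ (σ x) ^ 2 ≤ 1 := by nlinarith
    have d : γ (σ x) / (2 * l) ≤ Ψ (σ x) / (2 * l) := by gcongr; exact hγΨ _
    have e : (χ (σ x) * G x) ^ 2 ≤ τ ^ 2 * (1 + Ψ (σ x) / (2 * l)) := by
      rw [mul_pow]
      have f := hG x
      have g : τ ^ 2 * (1 + γ (σ x) / (2 * l)) ≤ τ ^ 2 * (1 + Ψ (σ x) / (2 * l)) := by gcongr
      nlinarith [sq_nonneg (G x)]
    rw [cut, mul_pow]
    refine (mul_le_mul_of_nonneg_left e (sq_nonneg _)).trans (le_of_eq ?_)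
    field_simp
    ring
  have hΨ0 : 0 ≤ Ψ (σ x) := (hγ _).trans (hγΨ _)
  simp only [indicator_of_mem hx]
  by_cases hy : l / 32 < Ψ (σ x)
  · rw [indicator_of_mem (show σ x ∈ {y | l / 32 < Ψ y} from hy),
      ← ENNReal.ofReal_mul (by positivity), ← ENNReal.ofReal_one,
      ← ENNReal.ofReal_add (by norm_num) (by positivity)]
    refine ENNReal.ofReal_le_ofReal (h1.trans ?_)
    have e : Ψ (σ x) / (2 * l) = (1 / 2) * (l⁻¹ * Ψ (σ x)) := by field_simp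
    have : 0 ≤ l⁻¹ * Ψ (σ x) := by positivity
    rw [e]
    linarith
  · refine le_add_right ?_
    rw [← ENNReal.ofReal_one]
    refine ENNReal.ofReal_le_ofReal (h1.trans ?_)
    have : Ψ (σ x) / (2 * l) ≤ 1 := by
      rw [div_le_one (by positivity)]
      linarith [not_lt.1 hy]
    linarith

theorem T3_smul {n : Type*} [Fintype n] [DecidableEq n] (r A B C : Matrix n n ℝ) (a b c : ℝ) :
    T3 r (a • A) (b • B) (c • C) = a * b * c * T3 r A B C := by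
  simp only [T3, Matrix.mul_smul, Matrix.smul_mul, trace_smul, smul_eq_mul]
  ring

/-- the squares on which the mean of `Ψ` exceeds `l` -/
def bad (Ψ : ℝ × ℝ → ℝ) (η : ℝ) (N : ℕ) (l : ℝ) : Set (ℕ × (ℝ × ℝ)) :=
  {a | a.1 ≤ N ∧ ENNReal.ofReal (l * (2 ^ (a.1 + 1) * η) ^ 2)
    < ∫⁻ y in closedBall a.2 (2 * (2 ^ (a.1 + 1) * η)), ENNReal.ofReal (Ψ y)}

/-- their union -/
def badU (Ψ : ℝ × ℝ → ℝ) (η : ℝ) (N : ℕ) (l : ℝ) : Set (ℝ × ℝ) :=
  ⋃ a ∈ bad Ψ η N l, closedBall a.2 (2 * (2 ^ (a.1 + 1) * η))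

theorem vol_badU (Ψ : ℝ × ℝ → ℝ) {η : ℝ} (hη : 0 < η) (N : ℕ) {l : ℝ}
    (hl : 0 < l) : volume (thickening η (badU Ψ η N l)) ≤ 800 * ENNReal.ofReal l⁻¹ *
      ∫⁻ y, {y | l / 32 < Ψ y}.indicator (fun y => ENNReal.ofReal (Ψ y)) y := by
  have h := weak (fun y => {y | l / 32 < Ψ y}.indicator (fun y => ENNReal.ofReal (Ψ y)) y)
    (bad Ψ η N l) (fun a => a.2) (fun a => 2 * (2 ^ (a.1 + 1) * η)) (R := 2 * (2 ^ (N + 1) * η))
    (8 * ENNReal.ofReal l⁻¹) hη ?_ ?_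
  · refine h.trans (le_of_eq ?_)
    rw [← mul_assoc]
    norm_num
  · intro a ha
    have h1 : (1 : ℝ) ≤ 2 ^ (a.1 + 1) := one_le_pow₀ (by norm_num)
    have h2 : (2 : ℝ) ^ (a.1 + 1) ≤ 2 ^ (N + 1) :=
      pow_le_pow_right₀ (by norm_num) (by have := ha.1; omega)
    constructor
    · nlinarith
    · gcongr
  · intro a ha
    have h1 := ha.2
    set L := (2 : ℝ) ^ (a.1 + 1) * η with hL
    have hL0 : 0 < L := by positivity
    set ν := ∫⁻ y in closedBall a.2 (2 * L),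
      {y | l / 32 < Ψ y}.indicator (fun y => ENNReal.ofReal (Ψ y)) y with hν
    have h2 : ∫⁻ y in closedBall a.2 (2 * L), ENNReal.ofReal (Ψ y)
        ≤ ν + ENNReal.ofReal (l / 2 * L ^ 2) := by
      have e : ENNReal.ofReal (l / 2 * L ^ 2)
          = ∫⁻ _ in closedBall a.2 (2 * L), ENNReal.ofReal (l / 32) := by
        rw [setLIntegral_const, vol_ball _ (by positivity), ← ENNReal.ofReal_mul (by positivity)]
        congr 1
        ring
      rw [e, hν, ← lintegral_add_right _ measurable_const]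
      refine lintegral_mono fun y => ?_
      by_cases hy : l / 32 < Ψ y
      · simp only [indicator_of_mem (show y ∈ {y | l / 32 < Ψ y} from hy)]
        exact le_self_add
      · exact le_add_left (ENNReal.ofReal_le_ofReal (not_lt.1 hy))
    have h3 : ENNReal.ofReal (l / 2 * L ^ 2) ≤ ν := by
      by_contra hc
      have h4 := (h1.trans_le h2).trans_le (add_le_add (not_le.1 hc).le le_rfl)
      rw [← ENNReal.ofReal_add (by positivity) (by positivity),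
        show l / 2 * L ^ 2 + l / 2 * L ^ 2 = l * L ^ 2 by ring] at h4
      exact lt_irrefl _ h4
    refine le_trans (le_of_eq ?_) (mul_le_mul_right h3 _)
    rw [← ENNReal.ofReal_ofNat 8, ← ENNReal.ofReal_mul (by norm_num),
      ← ENNReal.ofReal_mul (by positivity)]
    congr 1
    field_simp
    ring

theorem dist_rot (x y : ℝ × ℝ) : dist (rot 0 x) (rot 0 y) ≤ 2 * dist x y := by
  have h1 : |x.1 - y.1| ≤ dist x y := by
    rw [Prod.dist_eq, Real.dist_eq]; exact le_max_left _ _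
  have h2 : |x.2 - y.2| ≤ dist x y := by
    rw [Prod.dist_eq, Real.dist_eq x.2]; exact le_max_right _ _
  rw [abs_le] at h1 h2
  rw [Prod.dist_eq, Real.dist_eq, Real.dist_eq, max_le_iff, abs_le, abs_le]
  simp only [rot]
  refine ⟨⟨?_, ?_⟩, ?_, ?_⟩ <;> linarith [h1.1, h1.2, h2.1, h2.2]

theorem dist_rot2 (x y : ℝ × ℝ) :
    dist (rot 0 (rot 0 x)) (rot 0 (rot 0 y)) ≤ 2 * dist x y := by
  have h1 : |x.1 - y.1| ≤ dist x y := by
    rw [Prod.dist_eq, Real.dist_eq]; exact le_max_left _ _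
  have h2 : |x.2 - y.2| ≤ dist x y := by
    rw [Prod.dist_eq, Real.dist_eq x.2]; exact le_max_right _ _
  rw [abs_le] at h1 h2
  rw [rot_rot, rot_rot, Prod.dist_eq, Real.dist_eq, Real.dist_eq, max_le_iff, abs_le, abs_le]
  refine ⟨⟨?_, ?_⟩, ?_, ?_⟩ <;> simp only <;> linarith [h1.1, h1.2, h2.1, h2.2]

theorem mem_ball2 {p y : ℝ × ℝ} {r : ℝ} (h1 : -r ≤ y.1 - p.1) (h2 : y.1 - p.1 ≤ r)
    (h3 : -r ≤ y.2 - p.2) (h4 : y.2 - p.2 ≤ r) : y ∈ closedBall p r := by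
  rw [mem_closedBall, Prod.dist_eq, Real.dist_eq, Real.dist_eq, max_le_iff, abs_le, abs_le]
  exact ⟨⟨h1, h2⟩, h3, h4⟩

/-- the local forms of all boxes are summable against the `q`-th power of a majorant -/
theorem loc {G₀ G₁ G₂ γ Ψ : ℝ × ℝ → ℝ} (h0 : CC G₀) (h1 : CC G₁) (h2 : CC G₂) {η q : ℝ}
    (hη : 0 < η) (hq : 1 < q) (hγ : ∀ x, 0 ≤ γ x) (hΨ : Measurable Ψ)
    (hfin : ∀ p r, ∫⁻ y in closedBall p r, ENNReal.ofReal (Ψ y) ≠ ∞)
    (hdom : ∀ x y, dist x y ≤ 2 * η → γ x ≤ Ψ y) (hz : ∀ x, γ x = 0 → G₀ x = 0)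
    (hτ : ∀ l : ℝ, 0 < l → ∃ τ₀ τ₁ τ₂ : ℝ, 0 < τ₀ ∧ 0 < τ₁ ∧ 0 < τ₂ ∧ τ₀ * τ₁ * τ₂ = l ^ q ∧
      (∀ x, G₀ x ^ 2 ≤ τ₀ ^ 2 * (1 + γ x / l)) ∧
      (∀ x, G₁ x ^ 2 ≤ τ₁ ^ 2 * (1 + γ (rot 0 (rot 0 x)) / l)) ∧
      (∀ x, G₂ x ^ 2 ≤ τ₂ ^ 2 * (1 + γ (rot 0 x) / l))) (N : ℕ) :
    ∑ k ∈ Finset.Icc 1 N, ∫⁻ p, ENNReal.ofReal (tri η k G₀ G₁ G₂ p)
      ≤ ENNReal.ofReal (8 * 810 * 3 * 801 * 2 ^ q * (32 ^ (q - 1) * (1 - 2 ^ (-(q - 1)))⁻¹)) *
        ∫⁻ y, ENNReal.ofReal (Ψ y ^ q) := by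
  have hl : ∀ n : ℤ, (0 : ℝ) < 2 ^ n := fun n => by positivity
  choose τ₀ τ₁ τ₂ t0 t1 t2 tp g0 g1 g2 using fun n : ℤ => hτ (2 * 2 ^ n) (by positivity)
  have hγΨ : ∀ x, γ x ≤ Ψ x := fun x => hdom x x (by rw [dist_self]; positivity)
  have hΨ0 : ∀ x, 0 ≤ Ψ x := fun x => (hγ x).trans (hγΨ x)
  set χ : ℤ → ℝ × ℝ → ℝ := fun n y => (thickenedIndicator hη (badU Ψ η N (2 ^ n)) y : ℝ) with hχ
  have hχc : ∀ n, Continuous (χ n) := fun n =>
    NNReal.continuous_coe.comp (thickenedIndicator hη _).continuous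
  have m0 : MeasurePreserving (fun x : ℝ × ℝ => x) volume volume := MeasurePreserving.id _
  have m1 : MeasurePreserving (fun x : ℝ × ℝ => rot 0 (rot 0 x)) volume volume :=
    (mp_rot 0).comp (mp_rot 0)
  have m2 := mp_rot 0
  have c1 : Continuous fun x : ℝ × ℝ => rot 0 (rot 0 x) := (cont_rot 0).comp (cont_rot 0)
  set F₀ : ℤ → ℝ × ℝ → ℝ := fun n => cut (χ n) (fun x => x) (τ₀ n) G₀ with hF₀
  set F₁ : ℤ → ℝ × ℝ → ℝ := fun n => cut (χ n) (fun x => rot 0 (rot 0 x)) (τ₁ n) G₁ with hF₁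
  set F₂ : ℤ → ℝ × ℝ → ℝ := fun n => cut (χ n) (rot 0) (τ₂ n) G₂ with hF₂
  have f0 : ∀ n, CC (F₀ n) := fun n => cut_cc _ (hχc n) continuous_id h0
  have f1 : ∀ n, CC (F₁ n) := fun n => cut_cc _ (hχc n) c1 h1
  have f2 : ∀ n, CC (F₂ n) := fun n => cut_cc _ (hχc n) (cont_rot 0) h2
  set w : ℤ → ℕ → ℝ × ℝ → ℝ≥0∞ := fun n k p => (small η k (F₀ n) (F₁ n) (F₂ n)).indicator
    (fun p => ENNReal.ofReal (tri η k (F₀ n) (F₁ n) (F₂ n) p)) p with hw
  have hwm : ∀ n k, Measurable (w n k) := fun n k =>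
    (cont_tri η k (f0 n).1 (f1 n).1 (f2 n).1).measurable.ennreal_ofReal.indicator
      (meas_small η k (f0 n).1 (f1 n).1 (f2 n).1)
  -- pointwise domination
  have hpt : ∀ k ∈ Finset.Icc 1 N, ∀ p, ENNReal.ofReal (tri η k G₀ G₁ G₂ p)
      ≤ ∑' n : ℤ, ENNReal.ofReal (8 * (2 * 2 ^ n) ^ q) * w n k p := by
    intro k hk p
    set L := (2 : ℝ) ^ (k + 1) * η with hL
    have hL0 : 0 < L := by positivity
    have hs : sk η k = -(3 / 2) * L := by rw [sk, hL, pow_succ]; ring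
    have d0 : ∀ x y : ℝ × ℝ, dist x y ≤ η → ENNReal.ofReal (γ x) ≤ ENNReal.ofReal (Ψ y) :=
      fun x y h => ENNReal.ofReal_le_ofReal (hdom _ _ (by linarith))
    have d1 : ∀ x y : ℝ × ℝ, dist x y ≤ η → ENNReal.ofReal (γ (rot 0 (rot 0 x)))
        ≤ ENNReal.ofReal (Ψ (rot 0 (rot 0 y))) :=
      fun x y h => ENNReal.ofReal_le_ofReal (hdom _ _ (by linarith [dist_rot2 x y]))
    have d2 : ∀ x y : ℝ × ℝ, dist x y ≤ η → ENNReal.ofReal (γ (rot 0 x))
        ≤ ENNReal.ofReal (Ψ (rot 0 y)) :=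
      fun x y h => ENNReal.ofReal_le_ofReal (hdom _ _ (by linarith [dist_rot x y]))
    have b0 : ∀ α β : ℝ, 0 ≤ α → α ≤ L → 0 ≤ β → β ≤ L →
        ((p.1 + α, p.2 + β) : ℝ × ℝ) ∈ closedBall p (2 * L) := fun α β a1 a2 a3 a4 =>
      mem_ball2 (by simp only; linarith) (by simp only; linarith) (by simp only; linarith)
        (by simp only; linarith)
    have b1 : ∀ α β : ℝ, 0 ≤ α → α ≤ L → 0 ≤ β → β ≤ L →
        rot 0 (rot 0 ((rot (sk η k) p).1 + α, (rot (sk η k) p).2 + β)) ∈ closedBall p (2 * L) := by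
      intro α β a1 a2 a3 a4
      rw [rot_rot, hs]
      refine mem_ball2 ?_ ?_ ?_ ?_ <;> simp only [rot] <;> linarith
    have b2 : ∀ α β : ℝ, 0 ≤ α → α ≤ L → 0 ≤ β → β ≤ L →
        rot 0 ((rot (sk η k) (rot (sk η k) p)).1 + α, (rot (sk η k) (rot (sk η k) p)).2 + β)
          ∈ closedBall p (2 * L) := by
      intro α β a1 a2 a3 a4
      rw [rot_rot, hs]
      refine mem_ball2 ?_ ?_ ?_ ?_ <;> simp only [rot] <;> linarith
    set A := ∫⁻ y in closedBall p (2 * L), ENNReal.ofReal (Ψ y) with hA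
    have hAf : A ≠ ∞ := hfin _ _
    by_cases hA0 : A = 0
    · have h := samp m0 hΨ.ennreal_ofReal hγ hη d0 (k + 1) p measurableSet_closedBall b0
      rw [← hA, hA0, nonpos_iff_eq_zero, ENNReal.ofReal_eq_zero] at h
      have h' : ∑ i : Ix (k + 1), ∑ j : Ix (k + 1),
          γ (p.1 + η * val (k + 1) i, p.2 + η * val (k + 1) j) ≤ 0 := by
        by_contra hc
        exact absurd h (not_le.2 (mul_pos (not_le.1 hc) (by positivity)))
      have e : smp' η k G₀ p = 0 := by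
        ext i j
        refine hz _ (le_antisymm ?_ (hγ _))
        refine le_trans ?_ h'
        refine le_trans ?_ (Finset.single_le_sum (f := fun i : Ix (k + 1) => ∑ j : Ix (k + 1),
          γ (p.1 + η * val (k + 1) i, p.2 + η * val (k + 1) j))
          (fun i _ => Finset.sum_nonneg fun j _ => hγ _) (Finset.mem_univ i))
        exact Finset.single_le_sum (f := fun j : Ix (k + 1) =>
          γ (p.1 + η * val (k + 1) i, p.2 + η * val (k + 1) j)) (fun j _ => hγ _)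
          (Finset.mem_univ j)
      rw [tri, e, T3_zero_left]
      simp
    have hA1 : 0 < A.toReal / L ^ 2 := div_pos (ENNReal.toReal_pos hA0 hAf) (by positivity)
    obtain ⟨n, n1, n2⟩ := exists_mem_Ioc_zpow hA1 (show (1 : ℝ) < 2 by norm_num)
    rw [lt_div_iff₀ (by positivity)] at n1
    rw [div_le_iff₀ (by positivity), zpow_add_one₀ (by norm_num), mul_comm _ (2 : ℝ)] at n2
    have hbad : (k, p) ∈ bad Ψ η N (2 ^ n) :=
      ⟨(Finset.mem_Icc.1 hk).2, (ENNReal.ofReal_lt_iff_lt_toReal (by positivity) hAf).2 n1⟩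
    have hone : ∀ y ∈ closedBall p (2 * L), χ n y = 1 := by
      intro y hy
      simp only [hχ]
      rw [thickenedIndicator_one hη _ (show y ∈ badU Ψ η N (2 ^ n) from mem_biUnion hbad hy)]
      rfl
    have hav : A ≤ ENNReal.ofReal (2 * 2 ^ n * L ^ 2) :=
      (ENNReal.le_ofReal_iff_toReal_le hAf (by positivity)).2 n2
    have hl2 : (0 : ℝ) < 2 * 2 ^ n := by positivity
    obtain ⟨e0, s0⟩ := one_box m0 hΨ.ennreal_ofReal hγ hη d0 k p measurableSet_closedBall b0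
      hone (t0 n) hl2 (g0 n) hav
    obtain ⟨e1, s1⟩ := one_box m1 hΨ.ennreal_ofReal hγ hη d1 k _ measurableSet_closedBall b1
      hone (t1 n) hl2 (g1 n) hav
    obtain ⟨e2, s2⟩ := one_box m2 hΨ.ennreal_ofReal hγ hη d2 k _ measurableSet_closedBall b2
      hone (t2 n) hl2 (g2 n) hav
    refine le_trans (le_of_eq ?_) (ENNReal.le_tsum n)
    have hp : p ∈ small η k (F₀ n) (F₁ n) (F₂ n) := ⟨s0, s1, s2⟩
    simp only [hw]
    rw [indicator_of_mem hp, ← ENNReal.ofReal_mul (by positivity), tri, tri, e0, e1, e2, T3_smul,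
      abs_mul, ← tp n, abs_of_pos (by have := t0 n; have := t1 n; have := t2 n; positivity)]
    congr 1
    ring
  set ν : ℤ → ℝ≥0∞ := fun n =>
    ∫⁻ y, {y | (2 : ℝ) ^ n / 32 < Ψ y}.indicator (fun y => ENNReal.ofReal (Ψ y)) y with hν
  have hI : ∀ n : ℤ, ∑ k ∈ Finset.Icc 1 N, ∫⁻ p, w n k p
      ≤ 810 * 3 * 801 * (ENNReal.ofReal ((2 : ℝ) ^ n)⁻¹ * ν n) := by
    intro n
    refine (key (f0 n) (f1 n) (f2 n) hη N).trans ?_
    have v := vol_badU Ψ hη N (hl n)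
    have x0 : ∀ y, 0 ≤ χ n y := fun y => NNReal.coe_nonneg _
    have x1 : ∀ y, χ n y ≤ 1 := fun y => by
      simp only [hχ]; exact_mod_cast thickenedIndicator_le_one hη _ y
    have xV : ∀ y, y ∉ thickening η (badU Ψ η N (2 ^ n)) → χ n y = 0 := fun y hy => by
      simp only [hχ]; rw [thickenedIndicator_zero hη _ hy]; rfl
    have mV : MeasurableSet (thickening η (badU Ψ η N (2 ^ n))) := isOpen_thickening.measurableSet
    have a0 := cut_I2 m0 continuous_id hΨ hγ hγΨ (hχc n) x0 x1 mV xV h0 (t0 n) (hl n) (g0 n)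
    have a1 := cut_I2 m1 c1 hΨ hγ hγΨ (hχc n) x0 x1 mV xV h1 (t1 n) (hl n) (g1 n)
    have a2 := cut_I2 m2 (cont_rot 0) hΨ hγ hγΨ (hχc n) x0 x1 mV xV h2 (t2 n) (hl n) (g2 n)
    rw [mul_assoc] at v
    set Z := ENNReal.ofReal ((2 : ℝ) ^ n)⁻¹ * ν n with hZ
    have z : volume (thickening η (badU Ψ η N (2 ^ n))) + Z ≤ 801 * Z := by
      calc _ ≤ 800 * Z + 1 * Z := by rw [one_mul]; gcongr
        _ = 801 * Z := by rw [← add_mul]; norm_num
    rw [ENNReal.ofReal_mul (by norm_num), ENNReal.ofReal_add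
      (add_nonneg (I2_nonneg _) (I2_nonneg _)) (I2_nonneg _),
      ENNReal.ofReal_add (I2_nonneg _) (I2_nonneg _), ENNReal.ofReal_ofNat]
    calc _ ≤ 810 * (801 * Z + 801 * Z + 801 * Z) := by
          gcongr
          · exact a0.trans z
          · exact a1.trans z
          · exact a2.trans z
      _ = _ := by ring
  calc ∑ k ∈ Finset.Icc 1 N, ∫⁻ p, ENNReal.ofReal (tri η k G₀ G₁ G₂ p)
      ≤ ∑ k ∈ Finset.Icc 1 N, ∑' n : ℤ, ENNReal.ofReal (8 * (2 * 2 ^ n) ^ q) * ∫⁻ p, w n k p := by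
        refine Finset.sum_le_sum fun k hk => (lintegral_mono (hpt k hk)).trans (le_of_eq ?_)
        rw [lintegral_tsum fun n => ((hwm n k).const_mul _).aemeasurable]
        exact tsum_congr fun n => lintegral_const_mul _ (hwm n k)
    _ = ∑' n : ℤ, ENNReal.ofReal (8 * (2 * 2 ^ n) ^ q) * ∑ k ∈ Finset.Icc 1 N, ∫⁻ p, w n k p := by
        rw [← Summable.tsum_finsetSum fun _ _ => ENNReal.summable]
        exact tsum_congr fun n => (Finset.mul_sum _ _ _).symm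
    _ ≤ ∑' n : ℤ, ENNReal.ofReal (8 * 810 * 3 * 801 * 2 ^ q) *
          ∫⁻ y, (if (2 : ℝ) ^ n / 32 < Ψ y then
            ENNReal.ofReal (((2 : ℝ) ^ n) ^ (q - 1) * Ψ y) else 0) := by
        refine ENNReal.tsum_le_tsum fun n => (mul_le_mul_right (hI n) _).trans (le_of_eq ?_)
        have e : ∫⁻ y, (if (2 : ℝ) ^ n / 32 < Ψ y then
            ENNReal.ofReal (((2 : ℝ) ^ n) ^ (q - 1) * Ψ y) else 0)
            = ENNReal.ofReal (((2 : ℝ) ^ n) ^ (q - 1)) * ν n := by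
          simp only [hν]
          rw [← lintegral_const_mul' _ _ ENNReal.ofReal_ne_top]
          refine lintegral_congr fun y => ?_
          by_cases hy : (2 : ℝ) ^ n / 32 < Ψ y
          · rw [if_pos hy, indicator_of_mem (show y ∈ {y | (2 : ℝ) ^ n / 32 < Ψ y} from hy),
              ENNReal.ofReal_mul (by positivity)]
          · rw [if_neg hy, indicator_of_notMem (show y ∉ {y | (2 : ℝ) ^ n / 32 < Ψ y} from hy),
              mul_zero]
        have e2 : (810 * 3 * 801 : ℝ≥0∞) = ENNReal.ofReal (810 * 3 * 801) := by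
          rw [ENNReal.ofReal_mul (by norm_num), ENNReal.ofReal_mul (by norm_num)]
          simp
        rw [e, e2, ← mul_assoc, ← mul_assoc, ← mul_assoc, ← ENNReal.ofReal_mul (by positivity),
          ← ENNReal.ofReal_mul (by positivity), ← ENNReal.ofReal_mul (by positivity)]
        congr 2
        rw [Real.mul_rpow (by norm_num) (hl n).le, Real.rpow_sub_one (hl n).ne']
        field_simp
    _ ≤ _ := by
        rw [ENNReal.tsum_mul_left, ← lintegral_tsum,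
          ENNReal.ofReal_mul (p := 8 * 810 * 3 * 801 * 2 ^ q) (by positivity),
          mul_assoc (ENNReal.ofReal _)]
        · refine mul_le_mul_right ?_ _
          rw [← lintegral_const_mul' _ _ ENNReal.ofReal_ne_top]
          refine lintegral_mono fun y => (geom (sub_pos.2 hq) (hΨ0 y)).trans (le_of_eq ?_)
          have hr1 : (2 : ℝ) ^ (-(q - 1)) < 1 :=
            Real.rpow_lt_one_of_one_lt_of_neg (by norm_num) (by linarith)
          rw [sub_add_cancel, ENNReal.ofReal_mul (by have := sub_pos.2 hr1; positivity)]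
        · intro n
          exact (Measurable.ite (measurableSet_lt measurable_const hΨ)
            (hΨ.const_mul _).ennreal_ofReal measurable_const).aemeasurable

end Vale.Agent.N075X
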