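import Vale.Agent.N075X.Loc

/-!
# P075: the truncated form of real continuous functions with compact support, all exponents
-/

namespace Vale.Agent.N075X

open MeasureTheory Metric Set Filter Topology Matrix Vale.Agent.P075 Vale.Agent.P075.R
  Vale.Agent.P075.R.H908
open scoped ENNReal

/-- the integral of `|G|^p` -/
noncomputable def Ip (p : ℝ) (G : ℝ × ℝ → ℝ) : ℝ := ∫ x, |G x| ^ p

theorem Ip_nonneg (p : ℝ) (G : ℝ × ℝ → ℝ) : 0 ≤ Ip p G := integral_nonneg fun _ => by positivity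

theorem cc_pow {p : ℝ} (hp : 0 < p) {G : ℝ × ℝ → ℝ} (hG : CC G) : CC fun x => |G x| ^ p :=
  ⟨hG.1.abs.rpow_const fun _ => Or.inr hp.le,
    hG.2.comp_left (g := fun x : ℝ => |x| ^ p) (by simp [hp.ne'])⟩

theorem cc_rot (s : ℝ) {G : ℝ × ℝ → ℝ} (hG : CC G) : CC fun x => G (rot s x) := by
  refine ⟨hG.1.comp (cont_rot s), ?_⟩
  have hK : IsCompact ((fun p => rot s (rot s p)) '' tsupport G) :=
    hG.2.isCompact.image ((cont_rot s).comp (cont_rot s))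
  refine HasCompactSupport.intro hK fun p hp => image_eq_zero_of_notMem_tsupport fun h => ?_
  exact hp ⟨rot s p, h, rot_three s p⟩

theorem CC.int {G : ℝ × ℝ → ℝ} (hG : CC G) : Integrable G := integrable_cs hG.1 hG.2

theorem lev_ineq {a p q l γ : ℝ} (hq : 0 < q) (hp : 2 * q ≤ p) (hl : 0 < l)
    (hγ : (|a| ^ p) ^ q⁻¹ ≤ γ) : a ^ 2 ≤ (l ^ (q / p)) ^ 2 * (1 + γ / l) := by
  have hp0 : 0 < p := by linarith
  set τ := l ^ (q / p) with hτ
  have hτ0 : 0 < τ := Real.rpow_pos_of_pos hl _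
  have hγ0 : 0 ≤ γ := le_trans (by positivity) hγ
  rw [← sq_abs a]
  rcases le_total |a| τ with h | h
  · have h1 : |a| ^ 2 ≤ τ ^ 2 := by gcongr
    have h2 : 0 ≤ τ ^ 2 * (γ / l) := by positivity
    nlinarith
  · have h1 : 1 ≤ |a| / τ := (one_le_div hτ0).2 h
    have h2 : (|a| / τ) ^ (2 : ℝ) ≤ (|a| / τ) ^ (p * q⁻¹) :=
      Real.rpow_le_rpow_of_exponent_le h1 (by rw [← div_eq_mul_inv, le_div_iff₀ hq]; exact hp)
    have h3 : τ ^ (p * q⁻¹) = l := by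
      rw [hτ, ← Real.rpow_mul hl.le, show q / p * (p * q⁻¹) = 1 by field_simp, Real.rpow_one]
    rw [Real.rpow_two, Real.div_rpow (abs_nonneg _) hτ0.le, h3, Real.rpow_mul (abs_nonneg _),
      div_pow, div_le_iff₀ (by positivity)] at h2
    have h4 : (|a| ^ p) ^ q⁻¹ / l ≤ γ / l := by gcongr
    nlinarith [sq_nonneg τ, mul_le_mul_of_nonneg_right h4 (sq_nonneg τ)]

variable {G₀ G₁ G₂ : ℝ × ℝ → ℝ}

theorem Ad_le (h0 : CC G₀) (h1 : CC G₁) (h2 : CC G₂) (η : ℝ) (k : ℕ) :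
    ENNReal.ofReal |Ad (W G₀ G₁ G₂) (k + 1) (2 ^ (k + 1) * η)|
      ≤ ∫⁻ p, ENNReal.ofReal (tri η k G₀ G₁ G₂ p) := by
  have hi : Integrable (tri η k G₀ G₁ G₂) :=
    integrable_cs (cont_tri η k h0.1 h1.1 h2.1) (hcs_of_zero (hcs_smp' η k h0.2) fun p hp => by
      rw [tri, hp, T3_zero_left, abs_zero, mul_zero])
  rw [← ofReal_integral_eq_lintegral_ofReal hi (ae_of_all _ fun p => by
    simp only [tri, Pi.zero_apply]; positivity)]
  refine ENNReal.ofReal_le_ofReal ?_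
  rw [Ad_eq h0 h1 h2, abs_mul, abs_of_pos (by positivity)]
  simp only [tri, rot_rot]
  rw [integral_const_mul]
  exact mul_le_mul_of_nonneg_left abs_integral_le_integral_abs (by positivity)

theorem Ad_sum (h0 : CC G₀) (h1 : CC G₁) (h2 : CC G₂) (t : ℝ) {m : ℕ} (hm : 2 ≤ m) (J : ℕ) :
    ENNReal.ofReal (∑ j ∈ Finset.range (J + 1), |Ad (W G₀ G₁ G₂) (m + j) (2 ^ j * t)|)
      ≤ ∑ k ∈ Finset.Icc 1 (m + J), ∫⁻ p, ENNReal.ofReal (tri (t / 2 ^ m) k G₀ G₁ G₂ p) := by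
  rw [ENNReal.ofReal_sum_of_nonneg fun _ _ => abs_nonneg _]
  have key : ∀ j, ENNReal.ofReal |Ad (W G₀ G₁ G₂) (m + j) (2 ^ j * t)|
      ≤ ∫⁻ p, ENNReal.ofReal (tri (t / 2 ^ m) (m - 1 + j) G₀ G₁ G₂ p) := by
    intro j
    have e1 : m + j = (m - 1 + j) + 1 := by omega
    have e2 : (2 : ℝ) ^ j * t = 2 ^ ((m - 1 + j) + 1) * (t / 2 ^ m) := by
      rw [← e1, pow_add]
      field_simp
    rw [e2, e1]
    exact Ad_le h0 h1 h2 _ _
  refine (Finset.sum_le_sum fun j _ => key j).trans ?_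
  rw [← Finset.sum_image (s := Finset.range (J + 1)) (g := fun j => m - 1 + j)
    (f := fun k => ∫⁻ p, ENNReal.ofReal (tri (t / 2 ^ m) k G₀ G₁ G₂ p))
    (fun a _ b _ hab => by simpa using hab)]
  refine Finset.sum_le_sum_of_subset fun k hk => ?_
  rw [Finset.mem_image] at hk
  obtain ⟨j, hj, rfl⟩ := hk
  rw [Finset.mem_range] at hj
  rw [Finset.mem_Icc]
  omega

/-- the single scale forms of all dyadic scales are summable -/
theorem Ac_sum {p₀ p₁ p₂ : ℝ} (hp0 : 2 < p₀) (hp1 : 2 < p₁) (hp2 : 2 < p₂)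
    (hp : p₀⁻¹ + p₁⁻¹ + p₂⁻¹ = 1) : ∃ C : ℝ, 0 ≤ C ∧ ∀ G₀ G₁ G₂ : ℝ × ℝ → ℝ, CC G₀ → CC G₁ →
      CC G₂ → ∀ t : ℝ, 0 < t → ∀ J : ℕ,
        ∑ j ∈ Finset.range (J + 1), |Ac (W G₀ G₁ G₂) (2 ^ j * t)|
          ≤ C * (Ip p₀ G₀ + Ip p₁ G₁ + Ip p₂ G₂) := by
  set q := min p₀ (min p₁ p₂) / 2 with hq
  have hq1 : 1 < q := by
    have : 2 < min p₀ (min p₁ p₂) := lt_min hp0 (lt_min hp1 hp2)
    linarith
  have hq0 : 0 < q := by linarith
  have q0 : 2 * q ≤ p₀ := by have := min_le_left p₀ (min p₁ p₂); linarith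
  have q1 : 2 * q ≤ p₁ := by
    have := (min_le_right p₀ (min p₁ p₂)).trans (min_le_left _ _); linarith
  have q2 : 2 * q ≤ p₂ := by
    have := (min_le_right p₀ (min p₁ p₂)).trans (min_le_right _ _); linarith
  set C : ℝ := 8 * 810 * 3 * 801 * 2 ^ q * (32 ^ (q - 1) * (1 - 2 ^ (-(q - 1)))⁻¹) with hC
  have hC0 : 0 ≤ C := by
    have hr1 : (2 : ℝ) ^ (-(q - 1)) < 1 :=
      Real.rpow_lt_one_of_one_lt_of_neg (by norm_num) (by linarith)
    have := sub_pos.2 hr1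
    positivity
  refine ⟨C, hC0, fun G₀ G₁ G₂ h0 h1 h2 t ht J => ?_⟩
  set g : ℝ × ℝ → ℝ := fun y => |G₀ y| ^ p₀ + |G₁ (rot 0 y)| ^ p₁ + |G₂ (rot 0 (rot 0 y))| ^ p₂
    with hg
  have k0 := cc_pow (show 0 < p₀ by linarith) h0
  have k1 := cc_pow (show 0 < p₁ by linarith) h1
  have k2 := cc_pow (show 0 < p₂ by linarith) h2
  have k1' : CC fun y => |G₁ (rot 0 y)| ^ p₁ := cc_rot 0 k1
  have k2' : CC fun y => |G₂ (rot 0 (rot 0 y))| ^ p₂ := cc_rot 0 (cc_rot 0 k2)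
  have gc : CC g := ⟨(k0.1.add k1'.1).add k2'.1, (k0.2.add k1'.2).add k2'.2⟩
  have g0 : ∀ y, 0 ≤ g y := fun y => by simp only [hg]; positivity
  have gI : ∫ y, g y = Ip p₀ G₀ + Ip p₁ G₁ + Ip p₂ G₂ := by
    have i01 : Integrable fun y => |G₀ y| ^ p₀ + |G₁ (rot 0 y)| ^ p₁ := (CC.int k0).add (CC.int k1')
    simp only [hg]
    rw [integral_add i01 (CC.int k2'), integral_add (CC.int k0) (CC.int k1'),
      int_rot 0 k1.1, int_rot 0 (cc_rot 0 k2).1, int_rot 0 k2.1]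
    rfl
  rw [← gI]
  set K := cthickening 1 (tsupport g) with hK
  have hKc : IsCompact K := gc.2.isCompact.cthickening
  have hKm : MeasurableSet K := hKc.measurableSet
  obtain ⟨M, hM⟩ := gc.1.bounded_above_of_compact_support gc.2
  have uc : UniformContinuous g := gc.2.uniformContinuous_of_continuous gc.1
  have hw := (H97.wl G₀ G₁ G₂ h0 h1 h2).1
  have main : ∀ δ : ℝ, 0 < δ → ∑ j ∈ Finset.range (J + 1), |Ac (W G₀ G₁ G₂) (2 ^ j * t)|
      ≤ C * ((∫ y, g y) + δ * volume.real K) := by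
    intro δ hδ
    obtain ⟨e, he, hee⟩ := Metric.uniformContinuous_iff.1 uc δ hδ
    have hlim : Tendsto (fun m : ℕ => ∑ j ∈ Finset.range (J + 1),
        |Ad (W G₀ G₁ G₂) (m + j) (2 ^ j * t)|) atTop
        (𝓝 (∑ j ∈ Finset.range (J + 1), |Ac (W G₀ G₁ G₂) (2 ^ j * t)|)) :=
      tendsto_finsetSum _ fun j _ =>
        ((H220.stLim _ hw (2 ^ j * t)).comp (tendsto_add_atTop_nat j)).abs
    have hη : Tendsto (fun m : ℕ => 2 * (t / 2 ^ m)) atTop (𝓝 0) := by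
      have := ((tendsto_pow_atTop_atTop_of_one_lt (show (1 : ℝ) < 2 by norm_num)).const_div_atTop
        t).const_mul 2
      rwa [mul_zero] at this
    refine le_of_tendsto hlim ?_
    filter_upwards [eventually_ge_atTop 2, hη.eventually (gt_mem_nhds (lt_min he one_pos))]
      with m hm hme
    set Φ : ℝ × ℝ → ℝ := fun y => g y + K.indicator (fun _ => δ) y with hΦ
    have Φ0 : ∀ y, 0 ≤ Φ y := fun y => add_nonneg (g0 y) (indicator_nonneg (fun _ _ => hδ.le) y)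
    have Φm : Measurable Φ := gc.1.measurable.add (measurable_const.indicator hKm)
    have iK : Integrable (K.indicator fun _ => δ) :=
      (integrableOn_const hKc.measure_lt_top.ne).integrable_indicator hKm
    have hq' : 0 ≤ q⁻¹ := by positivity
    have hL := loc (γ := fun y => g y ^ q⁻¹) (Ψ := fun y => Φ y ^ q⁻¹) h0 h1 h2
      (η := t / 2 ^ m) (by positivity) hq1 (fun y => Real.rpow_nonneg (g0 y) _)
      (Φm.pow_const _) ?_ ?_ ?_ ?_ (m + J)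
    · have e : ∀ y, (Φ y ^ q⁻¹) ^ q = Φ y := fun y => Real.rpow_inv_rpow (Φ0 y) hq0.ne'
      simp only [e] at hL
      have iΦ : Integrable Φ := (CC.int gc).add iK
      rw [← ofReal_integral_eq_lintegral_ofReal iΦ (ae_of_all _ Φ0), ← hC,
        ← ENNReal.ofReal_mul hC0] at hL
      have h3 := (Ad_sum h0 h1 h2 t hm J).trans hL
      rw [ENNReal.ofReal_le_ofReal_iff (mul_nonneg hC0 (integral_nonneg Φ0))] at h3
      refine h3.trans (le_of_eq ?_)
      simp only [hΦ]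
      rw [integral_add (CC.int gc) iK, integral_indicator_const _ hKm, smul_eq_mul, mul_comm _ δ]
    · intro p r
      refine ne_top_of_le_ne_top (b := ∫⁻ _ in closedBall p r, ENNReal.ofReal ((M + δ) ^ q⁻¹))
        ?_ (lintegral_mono fun y => ENNReal.ofReal_le_ofReal (Real.rpow_le_rpow (Φ0 y) ?_ hq'))
      · rw [setLIntegral_const]
        exact ENNReal.mul_ne_top ENNReal.ofReal_ne_top measure_closedBall_lt_top.ne
      · have a := (le_abs_self _).trans (hM y)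
        have b : K.indicator (fun _ => δ) y ≤ δ := indicator_le' (fun _ _ => le_rfl)
          (fun _ _ => hδ.le) y
        simp only [hΦ]
        linarith
    · intro x y hxy
      refine Real.rpow_le_rpow (g0 x) ?_ hq'
      by_cases hx : g x = 0
      · rw [hx]; exact Φ0 y
      have hy : y ∈ K := mem_cthickening_of_dist_le y x 1 _ (subset_tsupport _ hx) (by
        rw [dist_comm]; linarith [(hme.trans_le (min_le_right _ _))])
      have a := hee (a := x) (b := y) (hxy.trans_lt (hme.trans_le (min_le_left _ _)))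
      rw [Real.dist_eq, abs_lt] at a
      simp only [hΦ, indicator_of_mem hy]
      linarith [a.2]
    · intro x hx
      have a : g x = 0 := (Real.rpow_eq_zero (g0 x) (by positivity)).1 hx
      have b : |G₀ x| ^ p₀ = 0 := by
        refine le_antisymm ?_ (by positivity)
        have c1 : 0 ≤ |G₁ (rot 0 x)| ^ p₁ := by positivity
        have c2 : 0 ≤ |G₂ (rot 0 (rot 0 x))| ^ p₂ := by positivity
        simp only [hg] at a
        linarith
      exact abs_eq_zero.1 ((Real.rpow_eq_zero (abs_nonneg _) (by positivity)).1 b)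
    · intro l hl
      refine ⟨l ^ (q / p₀), l ^ (q / p₁), l ^ (q / p₂), by positivity, by positivity,
        by positivity, ?_, fun x => lev_ineq hq0 q0 hl ?_, fun x => lev_ineq hq0 q1 hl ?_,
        fun x => lev_ineq hq0 q2 hl ?_⟩
      · rw [← Real.rpow_add hl, ← Real.rpow_add hl]
        congr 1
        rw [div_eq_mul_inv, div_eq_mul_inv, div_eq_mul_inv, ← mul_add, ← mul_add, hp, mul_one]
      all_goals
        refine Real.rpow_le_rpow (by positivity) ?_ hq'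
        simp only [hg, rot_three]
        refine le_of_sub_nonneg ?_
        ring_nf
        positivity
  have hlim : Tendsto (fun δ : ℝ => C * ((∫ y, g y) + δ * volume.real K)) (𝓝[>] 0)
      (𝓝 (C * ((∫ y, g y) + 0 * volume.real K))) :=
    Tendsto.mono_left (Continuous.tendsto (by fun_prop) 0) nhdsWithin_le_nhds
  rw [zero_mul, add_zero] at hlim
  exact ge_of_tendsto hlim (eventually_nhdsWithin_of_forall main)

theorem W_le {p₀ p₁ p₂ : ℝ} (hp0 : 2 < p₀) (hp1 : 2 < p₁) (hp2 : 2 < p₂)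
    (hp : p₀⁻¹ + p₁⁻¹ + p₂⁻¹ = 1) (h0 : CC G₀) (h1 : CC G₁) (h2 : CC G₂) (u : ℝ) :
    |W G₀ G₁ G₂ u| ≤ Ip p₀ G₀ + Ip p₁ G₁ + Ip p₂ G₂ := by
  have k0 := cc_pow (show 0 < p₀ by linarith) h0
  have k1 := cc_pow (show 0 < p₁ by linarith) h1
  have k2 := cc_pow (show 0 < p₂ by linarith) h2
  have k1' : CC fun y => |G₁ (rot u y)| ^ p₁ := cc_rot u k1
  have k2' : CC fun y => |G₂ (rot u (rot u y))| ^ p₂ := cc_rot u (cc_rot u k2)
  have i01 : Integrable fun y => |G₀ y| ^ p₀ + |G₁ (rot u y)| ^ p₁ := (CC.int k0).add (CC.int k1')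
  have e : Ip p₀ G₀ + Ip p₁ G₁ + Ip p₂ G₂
      = ∫ y, |G₀ y| ^ p₀ + |G₁ (rot u y)| ^ p₁ + |G₂ (rot u (rot u y))| ^ p₂ := by
    rw [integral_add i01 (CC.int k2'), integral_add (CC.int k0) (CC.int k1'),
      int_rot u k1.1, int_rot u (cc_rot u k2).1, int_rot u k2.1]
    rfl
  rw [e, ← Real.norm_eq_abs]
  refine norm_integral_le_of_norm_le (i01.add (CC.int k2')) (ae_of_all _ fun y => ?_)
  have h := Real.geom_mean_le_arith_mean3_weighted (w₁ := p₀⁻¹) (w₂ := p₁⁻¹) (w₃ := p₂⁻¹)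
    (p₁ := |G₀ y| ^ p₀) (p₂ := |G₁ (rot u y)| ^ p₁) (p₃ := |G₂ (rot u (rot u y))| ^ p₂)
    (by positivity) (by positivity) (by positivity) (by positivity) (by positivity)
    (by positivity) hp
  rw [Real.rpow_rpow_inv (abs_nonneg _) (by positivity),
    Real.rpow_rpow_inv (abs_nonneg _) (by positivity),
    Real.rpow_rpow_inv (abs_nonneg _) (by positivity)] at h
  have a0 : p₀⁻¹ ≤ 1 := inv_le_one_of_one_le₀ (by linarith)
  have a1 : p₁⁻¹ ≤ 1 := inv_le_one_of_one_le₀ (by linarith)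
  have a2 : p₂⁻¹ ≤ 1 := inv_le_one_of_one_le₀ (by linarith)
  have b0 := mul_le_of_le_one_left (show 0 ≤ |G₀ y| ^ p₀ by positivity) a0
  have b1 := mul_le_of_le_one_left (show 0 ≤ |G₁ (rot u y)| ^ p₁ by positivity) a1
  have b2 := mul_le_of_le_one_left (show 0 ≤ |G₂ (rot u (rot u y))| ^ p₂ by positivity) a2
  rw [Real.norm_eq_abs, abs_mul, abs_mul, ← rot_rot]
  exact h.trans (by linarith)

theorem Ip_smul {p c : ℝ} (hc : 0 < c) (G : ℝ × ℝ → ℝ) (h : Ip p G ≤ c ^ p) :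
    Ip p (fun x => c⁻¹ * G x) ≤ 1 := by
  have e : Ip p (fun x => c⁻¹ * G x) = (c ^ p)⁻¹ * Ip p G := by
    unfold Ip
    rw [← integral_const_mul]
    refine integral_congr_ae (ae_of_all _ fun x => ?_)
    simp only
    rw [abs_mul, abs_of_pos (inv_pos.2 hc), Real.mul_rpow (by positivity) (abs_nonneg _),
      Real.inv_rpow hc.le]
  rw [e, inv_mul_le_iff₀ (by positivity), mul_one]
  exact h

/-- the truncated form of real functions -/
theorem real_all {p₀ p₁ p₂ : ℝ} (hp0 : 2 < p₀) (hp1 : 2 < p₁) (hp2 : 2 < p₂)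
    (hp : p₀⁻¹ + p₁⁻¹ + p₂⁻¹ = 1) : ∃ C : ℝ, 0 ≤ C ∧ ∀ G₀ G₁ G₂ : ℝ × ℝ → ℝ, CC G₀ → CC G₁ →
      CC G₂ → ∀ c₀ c₁ c₂ : ℝ, 0 < c₀ → 0 < c₁ → 0 < c₂ → Ip p₀ G₀ ≤ c₀ ^ p₀ →
      Ip p₁ G₁ ≤ c₁ ^ p₁ → Ip p₂ G₂ ≤ c₂ ^ p₂ → ∀ ε R : ℝ, 0 < ε → ε < R →
        |∫ u in ε..R, (W G₀ G₁ G₂ u - W G₀ G₁ G₂ (-u)) / u| ≤ C * (c₀ * c₁ * c₂) := by
  obtain ⟨C, hC0, hC⟩ := Ac_sum hp0 hp1 hp2 hp
  obtain ⟨C', hC'⟩ := H97.cal
  refine ⟨max (C' * (C * 3 + 3)) 0, le_max_right _ _,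
    fun G₀ G₁ G₂ h0 h1 h2 c₀ c₁ c₂ n0 n1 n2 i0 i1 i2 ε R hε hR => ?_⟩
  have j0 := Ip_smul n0 G₀ i0
  have j1 := Ip_smul n1 G₁ i1
  have j2 := Ip_smul n2 G₂ i2
  have k₀ : CC (fun p => c₀⁻¹ * G₀ p) := H220.cc_smul h0
  have k₁ : CC (fun p => c₁⁻¹ * G₁ p) := H220.cc_smul h1
  have k₂ : CC (fun p => c₂⁻¹ * G₂ p) := H220.cc_smul h2
  set w := W (fun p => c₀⁻¹ * G₀ p) (fun p => c₁⁻¹ * G₁ p) (fun p => c₂⁻¹ * G₂ p) with hwdef
  have hmain := hC' w (H97.wl _ _ _ k₀ k₁ k₂).1 3 (C * 3)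
    (fun u => (W_le hp0 hp1 hp2 hp k₀ k₁ k₂ u).trans (by linarith))
    (fun t ht J => (hC _ _ _ k₀ k₁ k₂ t ht J).trans
      (mul_le_mul_of_nonneg_left (by linarith) hC0)) ε R hε hR
  have hscale : ∀ u, W G₀ G₁ G₂ u = c₀ * c₁ * c₂ * w u := by
    intro u
    rw [hwdef, H220.W_smul]
    field_simp
  have hint : ∫ u in ε..R, (W G₀ G₁ G₂ u - W G₀ G₁ G₂ (-u)) / u
      = c₀ * c₁ * c₂ * ∫ u in ε..R, (w u - w (-u)) / u := by
    rw [← intervalIntegral.integral_const_mul]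
    refine intervalIntegral.integral_congr fun u _ => ?_
    simp only [hscale]
    ring
  rw [hint, abs_mul, abs_of_nonneg (by positivity : 0 ≤ c₀ * c₁ * c₂), mul_comm]
  exact mul_le_mul_of_nonneg_right (hmain.trans (le_max_left _ _)) (by positivity)

end Vale.Agent.N075X
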